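import Vale.Agent.P073Y.Rd.Sk
import Vale.Agent.P073Z.EN.B
import Vale.Agent.P073Z.RCX

/-!
# One round: the analytic part
-/

open Set Metric Topology Filter
open scoped NNReal ENNReal

namespace P073.Rd

open P073.Top

namespace Ro

variable {Ω Λ : Set E3}

theorem lipc_congr {g h : E3 → E3} {X : Set E3} (e : EqOn g h X) : lipc g X = lipc h X :=
  iSup_congr fun x => iSup_congr fun hx => iSup_congr fun y => iSup_congr fun hy => by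
    rw [e hx, e hy]

theorem E_congr (S : Src Ω) {p : ℝ} {g h : E3 → E3} {φ : S.Q.ι} (e : EqOn g h (S.Q.cell φ)) :
    S.E p g φ = S.E p h φ := EN.en_congr (S.Q.isClosed_cell φ).measurableSet e

theorem add_rpow (a b : ℝ≥0∞) {p : ℝ} (hp : 0 ≤ p) : (a + b) ^ p ≤ (2 * a) ^ p + (2 * b) ^ p := by
  rw [two_mul, two_mul]
  rcases le_total a b with h | h
  · exact le_add_left (ENNReal.rpow_le_rpow (by gcongr) hp)
  · exact le_add_right (ENNReal.rpow_le_rpow (by gcongr) hp)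

theorem step {C a t : ℝ≥0∞} (hC : 1 ≤ C) : a ≤ C * a + t :=
  le_add_right (le_mul_of_one_le_left' hC)

theorem chain2 {C a₀ a₁ a₂ t : ℝ≥0∞} (hC : 1 ≤ C) (h1 : a₁ ≤ C * a₀ + t) (h2 : a₂ ≤ C * a₁ + t) :
    a₂ ≤ C ^ 2 * a₀ + 2 * C * t :=
  calc a₂ ≤ C * (C * a₀ + t) + C * t := h2.trans (by gcongr; exact le_mul_of_one_le_left' hC)
    _ = _ := by ring

theorem chain3 {C a₀ a₁ a₂ a₃ t : ℝ≥0∞} (hC : 1 ≤ C) (h1 : a₁ ≤ C * a₀ + t)
    (h2 : a₂ ≤ C * a₁ + t) (h3 : a₃ ≤ C * a₂ + t) : a₃ ≤ C ^ 3 * a₀ + 3 * C ^ 2 * t :=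
  calc a₃ ≤ C * (C ^ 2 * a₀ + 2 * C * t) + C ^ 2 * t := h3.trans (by
        gcongr
        · exact chain2 hC h1 h2
        · exact le_mul_of_one_le_left' (one_le_pow₀ hC))
    _ = _ := by ring

theorem small {η : ℝ≥0∞} (hη : 0 < η) (F : ℝ≥0 → ℝ≥0) (h : Continuous F) (h' : F 0 = 0) :
    ∀ᶠ t in 𝓝[>] 0, (F t : ℝ≥0∞) ≤ η :=
  (((ENNReal.continuous_coe.comp h).tendsto' 0 0
    (by simp [h'])).eventually_le_const hη).filter_mono nhdsWithin_le_nhds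

theorem small1 (C : ℝ≥0) {η : ℝ≥0∞} (hη : 0 < η) :
    ∀ᶠ t : ℝ≥0 in 𝓝[>] 0, 3 * (C : ℝ≥0∞) ^ 2 * t ≤ η :=
  (small hη (fun t => 3 * C ^ 2 * t) (by fun_prop) (by simp)).mono fun t h => by exact_mod_cast h

theorem small2 {p : ℝ} (hp : 0 < p) (C D r : ℝ≥0) (n : ℕ) {η : ℝ≥0∞} (hη : 0 < η) :
    ∀ᶠ t : ℝ≥0 in 𝓝[>] 0,
      3 * (C : ℝ≥0∞) ^ 2 * (D * ((r : ℝ≥0∞) ^ 2 * (2 * (n * (2 * C * t))) ^ p) + t) ≤ η := by
  have h1 : Continuous fun t : ℝ≥0 => (2 * (n * (2 * C * t))) ^ p :=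
    (NNReal.continuous_rpow_const hp.le).comp (by fun_prop)
  refine (small hη (fun t => 3 * C ^ 2 * (D * (r ^ 2 * (2 * (n * (2 * C * t))) ^ p) + t))
    (continuous_const.mul ((continuous_const.mul (continuous_const.mul h1)).add continuous_id))
    (by simp [hp.ne'])).mono fun t h => ?_
  push_cast [ENNReal.coe_rpow_of_nonneg _ hp.le] at h
  exact h

theorem nbr_finite {B : Set (Fin 3 → ℤ)} (hB : B.Finite) : (nbr 1 B).Finite :=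
  (hB.biUnion fun z _ => finite_Icc (fun i => z i - 1) fun i => z i + 1).subset
    fun z ⟨z', h1, h2⟩ => mem_biUnion h1 ⟨fun i => by
      have := (abs_le.1 (h2 i)).1; push_cast at this; simp only; omega, fun i => by
      have := (abs_le.1 (h2 i)).2; push_cast at this; simp only; omega⟩

theorem W_le (S : Src Ω) {p : ℝ} (hp : 0 ≤ p) {g h : E3 → E3} {φ : S.Q.ι} {D t : ℝ≥0∞}
    (T : Finset S.Q.ι) (H : ∀ e, S.Q.dim e = 1 → S.Q.cell e ⊆ S.Q.cell φ →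
      lipc h (S.Q.cell e) ≤ D * lipc g (S.Q.cell e) + open Classical in if e ∈ T then t else 0) :
    S.W p h φ ≤ (2 * D) ^ p * S.W p g φ + (S.r φ : ℝ≥0∞) ^ 2 * (2 * (T.card * t)) ^ p := by
  classical
  have h1 : S.A h φ ≤ D * S.A g φ + T.card * t := by
    have h2 : ∑' e, (if e ∈ T then t else 0) = T.card * t := by
      rw [tsum_eq_sum (s := T) fun e he => if_neg he, Finset.sum_congr rfl fun e he => if_pos he,
        Finset.sum_const, nsmul_eq_mul]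
    rw [Src.A, Src.A, ← ENNReal.tsum_mul_left, ← h2, ← ENNReal.tsum_add]
    refine ENNReal.tsum_le_tsum fun e => ?_
    by_cases he : S.Q.dim e = 1 ∧ S.Q.cell e ⊆ S.Q.cell φ
    · rw [if_pos he, if_pos he]
      convert H e he.1 he.2
    · rw [if_neg he]
      exact zero_le
  rw [Src.W, Src.W, mul_left_comm, ← mul_add, ← ENNReal.mul_rpow_of_nonneg _ _ hp, mul_assoc]
  exact mul_le_mul_right ((ENNReal.rpow_le_rpow h1 hp).trans (add_rpow _ _ hp)) _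

/-- the analytic content of a stage -/
def St (p c θ ϑ : ℝ) (C : ℝ≥0) (CM : ℝ≥0 → ℝ≥0) (S : Src Ω) (η : ℝ≥0∞) (𝓢 : Set S.Q.ι)
    (ψ : S.Q.ι → (E2 →ᵃ[ℝ] E3)) (a : S.Q.ι → ℝ) : StT Ω Λ := fun g h lo hi o J =>
  (∀ e, S.Q.dim e = 1 → Away g.toFun (S.Q.cell e) (Rim lo hi J) (2 * o) →
    lipc h.toFun (S.Q.cell e) ≤ C * lipc g.toFun (S.Q.cell e) + η) ∧
  (∀ φ, S.Q.dim φ = 2 → Away g.toFun (S.Q.cell φ) (Rim lo hi J) (2 * o) →
    S.E p h.toFun φ ≤ C * S.E p g.toFun φ + CM (S.M φ) * S.W p g.toFun φ + η) ∧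
  (∀ φ, S.Q.dim φ = 2 → Deep g.toFun (S.Q.cell φ) lo hi (2 * o) →
    S.E p h.toFun φ ≤ CM (S.M φ) * S.W p g.toFun φ + η) ∧
  (J = {0, 1} →
    (∀ e x y, S.Q.dim e = 1 → S.Q.cell e = segment ℝ x y →
      Deep g.toFun (S.Q.cell e) lo hi (2 * o) →
        SharpE g.toFun h.toFun x y θ η ∧ Rise g.toFun h.toFun x y ϑ η) ∧
    ∀ φ ∈ {φ ∈ 𝓢 | Marked S g.toFun θ φ (ψ φ) (a φ)}, Deep g.toFun (S.Q.cell φ) lo hi (2 * o) →
      SharpF p h.toFun (ψ φ) (a φ) θ c η)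

variable {p c θ ϑ : ℝ} {C : ℝ≥0} {CM : ℝ≥0 → ℝ≥0} {S : Src Ω} {η X : ℝ≥0∞} {𝓢 : Set S.Q.ι}
  {ψ : S.Q.ι → (E2 →ᵃ[ℝ] E3)} {a : S.Q.ι → ℝ} {g g' : ConHomeo Ω Λ} {P : Prop} {e : S.Q.ι}

theorem alt_lip (hC : 1 ≤ C) (h : Alt (St p c θ ϑ C CM S η 𝓢 ψ a) P g g' (S.Q.cell e)) (hP : P)
    (he : S.Q.dim e = 1) : lipc g'.toFun (S.Q.cell e) ≤ C * lipc g.toFun (S.Q.cell e) + η := by
  rcases h with h | ⟨h, lo, hi, o, J, h1, h2, h3⟩
  · rw [lipc_congr h]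
    exact step (by exact_mod_cast hC)
  · rw [lipc_congr h2]
    exact h1.1 e he (h3 hP)

theorem alt_E (hC : 1 ≤ C) (h : Alt (St p c θ ϑ C CM S η 𝓢 ψ a) P g g' (S.Q.cell e)) (hP : P)
    (he : S.Q.dim e = 2) (hX : CM (S.M e) * S.W p g.toFun e + η ≤ X) :
    S.E p g'.toFun e ≤ C * S.E p g.toFun e + X := by
  rcases h with h | ⟨h, lo, hi, o, J, h1, h2, h3⟩
  · rw [E_congr S h]
    exact step (by exact_mod_cast hC)
  · rw [E_congr S h2]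
    exact (h1.2.1 e he (h3 hP)).trans (by rw [add_assoc]; gcongr)

theorem dalt_E {J : Finset (Fin 3)} (h : DAlt (St p c θ ϑ C CM S η 𝓢 ψ a) g g' (S.Q.cell e) J)
    (he : S.Q.dim e = 2) (hX : CM (S.M e) * S.W p g.toFun e + η ≤ X) :
    S.E p g'.toFun e ≤ C * 0 + X := by
  obtain ⟨h, lo, hi, o, h1, h2, h3⟩ := h
  rw [E_congr S h2]
  exact le_add_left ((h1.2.2.1 e he h3).trans hX)

theorem cor_mem (i : Fin 2) {s t : ℝ} (hs : s = 1 ∨ s = -1) (ht : t = 1 ∨ t = -1) :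
    cor i s t ∈ closedBall (0 : E2) 1 := by
  rw [mem_closedBall_zero_iff, pi_norm_le_iff_of_nonneg zero_le_one]
  intro k
  unfold cor
  split_ifs
  · rcases hs with rfl | rfl <;> simp
  · rcases ht with rfl | rfl <;> simp

end Ro

open Ro

theorem round_of0 {p : ℝ} (hp : 0 < p) (h0 : ROUND0) (hS : STAGE p) : ROUND p := by
  classical
  obtain ⟨c, hc, H⟩ := hS
  refine ⟨1 / 200, c, by norm_num, by norm_num, hc, fun θ h1 h2 => ?_⟩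
  obtain ⟨C, CM, hC, H⟩ := H θ h1 h2
  obtain ⟨C', hC', h0⟩ := h0 C hC
  refine ⟨max C' (C ^ 3), fun M => 3 * C ^ 2 * (CM M * (2 * C ^ 2) ^ p),
    hC'.trans (le_max_left _ _), fun ϑ h3 h4 => ?_⟩
  obtain ⟨K, hK, H⟩ := H ϑ h3 h4
  obtain ⟨K', hK', h0⟩ := h0 K hK
  refine ⟨K', hK', ?_⟩
  intro Ω Λ S g N B o η 𝓢 ψ a hΩ hΛ hN hB hη ho hM
  have hC1 : (1 : ℝ≥0∞) ≤ C := by exact_mod_cast hC
  have hC3 : (C : ℝ≥0∞) ^ 3 ≤ (max C' (C ^ 3) : ℝ≥0) := by exact_mod_cast le_max_right _ _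
  have hcell : ∀ e, S.Q.cell e ⊆ Ω := fun e => (S.Q.cell_subset_carrier e).trans S.carrier.le
  obtain ⟨T, hT⟩ : ∃ T : Finset S.Q.ι, ∀ e ∉ T, ∀ x ∈ S.Q.cell e,
      g.toFun x ∉ ⋃ z ∈ nbr 1 B, lbox N 0 z := by
    have b1 : (⋃ z ∈ nbr 1 B, lbox N 0 z) ⊆ Λ := iUnion₂_subset fun z hz => (ho z hz).1
    have b2 := S.Q.finite_meet (((nbr_finite hB).isCompact_biUnion fun z _ =>
      (isCompact_Icc : IsCompact (lbox N 0 z))).image_of_continuousOn (g.cont_inv.mono b1))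
      (by rintro _ ⟨y, hy, rfl⟩; exact S.carrier.ge (g.mapsTo_inv (b1 hy)))
    exact ⟨b2.toFinset, fun e he x hx hy => he (b2.mem_toFinset.2
      ⟨x, hx, _, hy, g.left_inv (hcell e hx)⟩)⟩
  obtain ⟨t, ⟨ht1, ht2⟩, ht⟩ : ∃ t : ℝ≥0, (3 * (C : ℝ≥0∞) ^ 2 * t ≤ η ∧ ∀ φ ∈ T,
      3 * (C : ℝ≥0∞) ^ 2 * (CM (S.M φ) * ((S.r φ : ℝ≥0∞) ^ 2 * (2 * (T.card * (2 * C * t))) ^ p) +
        t) ≤ η) ∧ 0 < t := by
    exact (((small1 C hη).and ((eventually_all_finset T).2 fun φ _ =>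
      small2 hp C _ _ _ hη)).and self_mem_nhdsWithin).exists
  have ht3 : (t : ℝ≥0∞) ≤ η := le_trans (le_mul_of_one_le_left'
    (one_le_mul (by norm_num) (one_le_pow₀ hC1))) ht1
  obtain ⟨g₁, g₂, g₃, Ψ, a1, a2, a3, a4, a5, a6⟩ := h0 S (St p c θ ϑ C CM S t 𝓢 ψ a) g N B o
    (fun g lo hi μ o J b1 b2 b3 b4 b5 b6 b7 => H S g lo hi μ o J t _ ψ a hΩ hΛ b1 b2 b3 b4 b5 b6 b7
      (by exact_mod_cast ht) fun φ hφ => hφ.2) hN hB ho
  have hout : ∀ e ∉ T, EqOn g₁.toFun g.toFun (S.Q.cell e) ∧ EqOn g₂.toFun g.toFun (S.Q.cell e) ∧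
      EqOn g₃.toFun g.toFun (S.Q.cell e) := fun e he => by
    have b1 := fun x hx => a2 x (hcell e hx) fun o => hT e he x hx (interior_subset o)
    exact ⟨fun x hx => (b1 x hx).1, fun x hx => (b1 x hx).2.1, fun x hx => (b1 x hx).2.2⟩
  refine ⟨g₃, Ψ, ⟨a1.lip.weaken (le_max_left _ _), a1.off, a1.keep, fun z y y' b1 b2 =>
    (a1.inv z y y' b1 b2).trans (by gcongr; exact le_max_left _ _), a1.lat⟩,
    fun x b1 b2 => (a2 x b1 b2).2.2, a3, fun e he hm => ?_, fun φ hφ hm => ?_, fun z hz => ⟨?_, ?_⟩⟩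
  · refine (chain3 hC1 (alt_lip hC (a4 e).1 hm he) (alt_lip hC (a4 e).2.1 trivial he)
      (alt_lip hC (a4 e).2.2 trivial he)).trans ?_
    gcongr
  · by_cases hφT : φ ∈ T
    swap
    · refine ⟨?_, fun ⟨z, hz, _, ⟨x, hx, rfl⟩, b1⟩ => absurd (mem_biUnion
        (show z ∈ nbr 1 B from ⟨z, hz, by simp⟩) b1) (hT φ hφT x hx)⟩
      rw [E_congr S (hout φ hφT).2.2, add_assoc]
      exact step ((one_le_pow₀ hC1).trans hC3)
    obtain ⟨X, hX⟩ : ∃ X, X = CM (S.M φ) * ((2 * (C : ℝ≥0∞) ^ 2) ^ p * S.W p g.toFun φ +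
      (S.r φ : ℝ≥0∞) ^ 2 * (2 * (T.card * (2 * C * t))) ^ p) + t := ⟨_, rfl⟩
    have b1 : ∀ k : ConHomeo Ω Λ, (∀ e ∉ T, EqOn k.toFun g.toFun (S.Q.cell e)) →
        (∀ e, S.Q.dim e = 1 → Miss N (1 / 200) (nbr 1 B) g.toFun (S.Q.cell e) →
          lipc k.toFun (S.Q.cell e) ≤ C ^ 2 * lipc g.toFun (S.Q.cell e) + 2 * C * t) →
        CM (S.M φ) * S.W p k.toFun φ + t ≤ X := fun k b2 b3 => by
      rw [hX]
      gcongr
      refine W_le S hp.le T fun e he hs => ?_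
      split_ifs with b4
      · exact b3 e he fun z hz => (hm z hz).mono_left (image_mono hs)
      · rw [lipc_congr (b2 e b4)]
        exact step (one_le_pow₀ hC1)
    have x0 := b1 g (fun _ _ _ _ => rfl) fun e _ _ => step (one_le_pow₀ hC1)
    have x1 := b1 g₁ (fun e he => (hout e he).1) fun e he hm =>
      chain2 hC1 (alt_lip hC (a4 e).1 hm he) (step hC1)
    have x2 := b1 g₂ (fun e he => (hout e he).2.1) fun e he hm =>
      chain2 hC1 (alt_lip hC (a4 e).1 hm he) (alt_lip hC (a4 e).2.1 trivial he)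
    have y0 := alt_E hC (a4 φ).1 hm hφ x0
    have y1 := alt_E hC (a4 φ).2.1 trivial hφ x1
    have y2 := alt_E hC (a4 φ).2.2 trivial hφ x2
    have b2 : 3 * (C : ℝ≥0∞) ^ 2 * X ≤
        (3 * C ^ 2 * (CM (S.M φ) * (2 * C ^ 2) ^ p) : ℝ≥0) * S.W p g.toFun φ + η := by
      refine le_trans (le_of_eq ?_) (add_le_add le_rfl (ht2 φ hφT))
      rw [hX]
      push_cast [ENNReal.coe_rpow_of_nonneg _ hp.le]
      ring
    refine ⟨(chain3 hC1 y0 y1 y2).trans ?_, fun b3 => le_trans ?_ b2⟩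
    · rw [add_assoc]
      gcongr
    · obtain ⟨J, b4 | b4 | b4⟩ := a5 φ hm b3
      · simpa using chain3 hC1 (dalt_E b4 hφ x0) y1 y2
      · simpa using chain3 (a₀ := 0) hC1 zero_le (dalt_E b4 hφ x1) y2
      · simpa using chain3 (a₀ := 0) (a₁ := 0) hC1 zero_le zero_le (dalt_E b4 hφ x2)
  · intro e x y he hs hz'
    obtain ⟨h, lo, hi, o', b1, b2, b3⟩ := a6 z hz e hz'
    obtain ⟨b4, b5⟩ := (b1.2.2.2 rfl).1 e x y he hs b3
    rw [hs] at b2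
    refine ⟨fun u hu w hw => ?_, ?_⟩
    · rw [b2 hu, b2 hw]
      exact (b4 u hu w hw).trans (by gcongr)
    · rw [Rise, b2 (left_mem_segment ℝ x y), b2 (right_mem_segment ℝ x y)]
      exact b5.trans (by gcongr)
  · intro φ hφ hz' b0
    obtain ⟨h, lo, hi, o', b1, b2, b3⟩ := a6 z hz φ hz'
    have b4 : ∀ v ∈ closedBall (0 : E2) 1, g₃.toFun (ψ φ v) = h.toFun (ψ φ v) := fun v hv =>
      b2 ((hM φ hφ).cell ▸ mem_image_of_mem _ hv)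
    rw [EN.en_congr measurableSet_closedBall
      (h' := fun v => h.toFun (ψ φ v) - a φ • (![v 0, v 1, 0] : E3)) fun v hv => by
        simp only [b4 v hv]]
    refine ((b1.2.2.2 rfl).2 φ ⟨hφ, hM φ hφ⟩ b3 fun i s hs => ?_).trans (by gcongr)
    rw [← b4 _ (cor_mem i (Or.inl rfl) hs), ← b4 _ (cor_mem i (Or.inr rfl) hs)]
    exact b0 i s hs

end P073.Rd
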