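import Vale.Agent.P073Y.Rd.Geo
import Vale.Agent.P073Y.Rd.Round

/-!
# A round from stages
-/

namespace P073.Rd

theorem round_of {p : ℝ} (hp : 0 < p) (hS : Top.STAGE p) : Top.ROUND p := round_of0 hp round0 hS

end P073.Rd
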