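import Vale.Agent.P073Z.Defs

/-!
# Gluing of modifications with disjoint supports
-/

open Set Metric Topology Filter

namespace P073.Rd

variable {E F : Type} [NormedAddCommGroup E] [NormedSpace ℝ E]
  [NormedAddCommGroup F] [NormedSpace ℝ F]

/-- a modification supported in `M` keeps the preimage of `M` -/
theorem mem_iff {X : Set E} {Y M : Set F} (g h : ConHomeo X Y)
    (he : ∀ x ∈ X, g.toFun x ∉ M → h.toFun x = g.toFun x) {x : E} (hx : x ∈ X) :
    h.toFun x ∈ M ↔ g.toFun x ∈ M := by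
  constructor
  · intro h1
    by_contra h2
    rw [he x hx h2] at h1
    exact h2 h1
  · intro h1
    by_contra h2
    have hy : h.toFun x ∈ Y := h.mapsTo hx
    have hx' : g.invFun (h.toFun x) ∈ X := g.mapsTo_inv hy
    have e1 : g.toFun (g.invFun (h.toFun x)) = h.toFun x := g.right_inv hy
    have e2 := he _ hx' (by rw [e1]; exact h2)
    rw [e1] at e2
    have e3 : g.invFun (h.toFun x) = x := h.injOn hx' hx e2
    rw [e3] at e1
    rw [e1] at h1
    exact h2 h1

omit [NormedSpace ℝ F] in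
/-- near a point of `Y` at most one member of a disjoint locally finite closed family matters -/
theorem exists_near {ι : Type} {Y : Set F} {M : ι → Set F} (hc : ∀ i, ClosedIn (M i) Y)
    (hl : LFIn M Y) {y : F} (hy : y ∈ Y) (S : Set ι) (hS : ∀ j ∈ S, y ∉ M j) :
    ∀ᶠ w in 𝓝 y, ∀ j ∈ S, w ∉ M j := by
  obtain ⟨U, hU, hfin⟩ := hl y hy
  have h1 : ∀ᶠ w in 𝓝 y, ∀ j ∈ {i | (M i ∩ U).Nonempty} ∩ S, w ∉ M j := by
    rw [eventually_all_finite (hfin.inter_of_left S)]
    intro j hj
    have : y ∉ closure (M j) := fun h => hS j hj.2 (hc j y hy h)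
    filter_upwards [isClosed_closure.isOpen_compl.mem_nhds this] with w hw hw'
    exact hw (subset_closure hw')
  filter_upwards [h1, hU] with w hw hwU j hj hwj
  exact hw j ⟨⟨w, hwj, hwU⟩, hj⟩ hwj

/-- **parallel gluing** -/
theorem par {ι : Type} {X : Set E} {Y : Set F} (g : ConHomeo X Y) (h : ι → ConHomeo X Y)
    (M : ι → Set F) (hc : ∀ i, ClosedIn (M i) Y) (hl : LFIn M Y)
    (hd : ∀ i j, i ≠ j → Disjoint (M i) (M j))
    (he : ∀ i, ∀ x ∈ X, g.toFun x ∉ M i → (h i).toFun x = g.toFun x) :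
    ∃ H : ConHomeo X Y, (∀ x ∈ X, (∀ j, g.toFun x ∉ M j) → H.toFun x = g.toFun x) ∧
      ∀ i, ∀ x ∈ X, (∀ j, j ≠ i → g.toFun x ∉ M j) → H.toFun x = (h i).toFun x := by
  classical
  let f : E → F := fun x => if hx : ∃ i, g.toFun x ∈ M i then (h hx.choose).toFun x else g.toFun x
  let k : F → E := fun y => if hy : ∃ i, y ∈ M i then (h hy.choose).invFun y else g.invFun y
  have uniq : ∀ {i j y}, y ∈ M i → y ∈ M j → i = j := by
    intro i j y h1 h2
    by_contra hne
    exact disjoint_left.1 (hd i j hne) h1 h2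
  have f0 : ∀ x, (∀ j, g.toFun x ∉ M j) → f x = g.toFun x := by
    intro x hx
    simp only [f]
    rw [dif_neg (not_exists.2 hx)]
  have f1 : ∀ i x, g.toFun x ∈ M i → f x = (h i).toFun x := by
    intro i x hx
    have hex : ∃ i, g.toFun x ∈ M i := ⟨i, hx⟩
    simp only [f]
    rw [dif_pos hex, uniq hex.choose_spec hx]
  have k0 : ∀ y, (∀ j, y ∉ M j) → k y = g.invFun y := by
    intro y hy
    simp only [k]
    rw [dif_neg (not_exists.2 hy)]
  have k1 : ∀ i y, y ∈ M i → k y = (h i).invFun y := by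
    intro i y hy
    have hex : ∃ i, y ∈ M i := ⟨i, hy⟩
    simp only [k]
    rw [dif_pos hex, uniq hex.choose_spec hy]
  have f2 : ∀ i, ∀ x ∈ X, (∀ j, j ≠ i → g.toFun x ∉ M j) → f x = (h i).toFun x := by
    intro i x hx hj
    by_cases hi : g.toFun x ∈ M i
    · exact f1 i x hi
    · rw [he i x hx hi]
      refine f0 x fun j => ?_
      by_cases hji : j = i
      · rw [hji]; exact hi
      · exact hj j hji
  have inv_eq : ∀ i, ∀ y ∈ Y, y ∉ M i → (h i).invFun y = g.invFun y := by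
    intro i y hy hi
    have hx : g.invFun y ∈ X := g.mapsTo_inv hy
    have e1 : g.toFun (g.invFun y) = y := g.right_inv hy
    have e2 := he i _ hx (by rw [e1]; exact hi)
    rw [e1] at e2
    calc (h i).invFun y = (h i).invFun ((h i).toFun (g.invFun y)) := by rw [e2]
      _ = g.invFun y := (h i).left_inv hx
  have k2 : ∀ i, ∀ y ∈ Y, (∀ j, j ≠ i → y ∉ M j) → k y = (h i).invFun y := by
    intro i y hy hj
    by_cases hi : y ∈ M i
    · exact k1 i y hi
    · rw [inv_eq i y hy hi]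
      refine k0 y fun j => ?_
      by_cases hji : j = i
      · rw [hji]; exact hi
      · exact hj j hji
  -- local descriptions
  have locY : ∀ y ∈ Y, (∀ᶠ w in 𝓝 y, ∀ j, w ∉ M j) ∨
      ∃ i, ∀ᶠ w in 𝓝 y, ∀ j, j ≠ i → w ∉ M j := by
    intro y hy
    by_cases hex : ∃ i, y ∈ M i
    · obtain ⟨i, hi⟩ := hex
      refine Or.inr ⟨i, ?_⟩
      exact exists_near hc hl hy {j | j ≠ i} fun j hj hyj => hj (uniq hyj hi)
    · refine Or.inl ?_
      filter_upwards [exists_near hc hl hy univ fun j _ => not_exists.1 hex j] with w hw j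
      exact hw j (mem_univ j)
  have locf : ∀ x ∈ X, ∃ φ : ConHomeo X Y, ∀ᶠ w in 𝓝[X] x, f w = φ.toFun w := by
    intro x hx
    have hg : Tendsto g.toFun (𝓝[X] x) (𝓝 (g.toFun x)) := g.cont x hx
    rcases locY _ (g.mapsTo hx) with h1 | ⟨i, h1⟩
    · exact ⟨g, (hg.eventually h1).mono fun w hw => f0 w hw⟩
    · refine ⟨h i, ?_⟩
      filter_upwards [hg.eventually h1, self_mem_nhdsWithin] with w hw hwX
      exact f2 i w hwX hw
  have lock : ∀ y ∈ Y, ∃ φ : ConHomeo X Y, ∀ᶠ w in 𝓝[Y] y, k w = φ.invFun w := by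
    intro y hy
    rcases locY y hy with h1 | ⟨i, h1⟩
    · exact ⟨g, (h1.filter_mono nhdsWithin_le_nhds).mono fun w hw => k0 w hw⟩
    · refine ⟨h i, ?_⟩
      filter_upwards [h1.filter_mono nhdsWithin_le_nhds, self_mem_nhdsWithin] with w hw hwY
      exact k2 i w hwY hw
  refine ⟨
    { toFun := f
      invFun := k
      mapsTo := ?_
      mapsTo_inv := ?_
      left_inv := ?_
      right_inv := ?_
      cont := ?_
      cont_inv := ?_
      conical := ?_ }, fun x _ hx => f0 x hx, f2⟩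
  · intro x hx
    obtain ⟨φ, hφ⟩ := locf x hx
    rw [hφ.self_of_nhdsWithin hx]
    exact φ.mapsTo hx
  · intro y hy
    obtain ⟨φ, hφ⟩ := lock y hy
    rw [hφ.self_of_nhdsWithin hy]
    exact φ.mapsTo_inv hy
  · intro x hx
    by_cases hex : ∃ i, g.toFun x ∈ M i
    · obtain ⟨i, hi⟩ := hex
      rw [f1 i x hi, k1 i _ ((mem_iff g (h i) (he i) hx).2 hi)]
      exact (h i).left_inv hx
    · rw [f0 x (not_exists.1 hex), k0 _ (not_exists.1 hex)]
      exact g.left_inv hx
  · intro y hy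
    by_cases hex : ∃ i, y ∈ M i
    · obtain ⟨i, hi⟩ := hex
      have hx : (h i).invFun y ∈ X := (h i).mapsTo_inv hy
      have e1 : (h i).toFun ((h i).invFun y) = y := (h i).right_inv hy
      rw [k1 i y hi, f1 i _ ((mem_iff g (h i) (he i) hx).1 (by rw [e1]; exact hi))]
      exact e1
    · have e1 : g.toFun (g.invFun y) = y := g.right_inv hy
      rw [k0 y (not_exists.1 hex), f0 _ (by rw [e1]; exact not_exists.1 hex)]
      exact e1
  · intro x hx
    obtain ⟨φ, hφ⟩ := locf x hx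
    exact (φ.cont x hx).congr_of_eventuallyEq hφ (hφ.self_of_nhdsWithin hx)
  · intro y hy
    obtain ⟨φ, hφ⟩ := lock y hy
    exact (φ.cont_inv y hy).congr_of_eventuallyEq hφ (hφ.self_of_nhdsWithin hy)
  · intro x hx
    obtain ⟨φ, hφ⟩ := locf x hx
    exact (φ.conical x hx).congr_nhds (Eventually.of_forall fun _ => Iff.rfl)
      (eventually_nhdsWithin_iff.1 hφ) (hφ.self_of_nhdsWithin hx)

end P073.Rd
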