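import Vale.Agent.P073Y.Rd.Sk

/-!
# The lattice of sites: an element `w` has the centre `w ℓ / 2` and is long in the odd directions
-/

open Set Metric Topology Filter

namespace P073.Rd

open P073.Top

/-- lattice elements -/
abbrev Lat := Fin 3 → ℤ

/-- the centre -/
noncomputable def ctr (ℓ : E3) (w : Lat) : E3 := fun k => w k * ℓ k / 2

/-- the radius -/
noncomputable def rad (ℓ : E3) (a b : ℝ) (w : Lat) : E3 :=
  fun k => if Odd (w k) then ℓ k / 2 - b else a

/-- the box round the element -/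
def cube (ℓ : E3) (a b : ℝ) (w : Lat) : Set E3 := {y | ∀ k, |y k - ctr ℓ w k| ≤ rad ℓ a b w k}

/-- the long directions -/
def dirs (w : Lat) : Finset (Fin 3) := Finset.univ.filter fun k => Odd (w k)

/-- lower corner -/
noncomputable def slo (ℓ : E3) (a b : ℝ) (w : Lat) : E3 := fun k => ctr ℓ w k - rad ℓ a b w k

/-- upper corner -/
noncomputable def shi (ℓ : E3) (a b : ℝ) (w : Lat) : E3 := fun k => ctr ℓ w k + rad ℓ a b w k

/-- the closed box, shrunk -/
def box (ℓ : E3) (κ : ℝ) (z : Lat) : Set E3 :=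
  Icc (fun i => z i * ℓ i + κ) (fun i => (z i + 1) * ℓ i - κ)

/-- the open box -/
def obox (ℓ : E3) (z : Lat) : Set E3 := {y | ∀ k, z k * ℓ k < y k ∧ y k < (z k + 1) * ℓ k}

/-- the sites with `d` long directions -/
def sites (B : Set Lat) (d : ℕ) : Set Lat :=
  {w | (dirs w).card = d ∧ ∃ z ∈ B, ∀ k, |2 * z k + 1 - w k| ≤ 1}

/-- moves towards the lattice planes -/
def Mv (ℓ : E3) (A : ℝ) (Ψ : E3 → E3) : Prop := ∀ y k, Ψ y k = y k ∨
  ∃ n : ℤ, |y k - n * ℓ k| ≤ A ∧ Ψ y k ∈ uIcc (n * ℓ k) (y k)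

variable {ℓ : E3} {a b a' b' A : ℝ} {w w' z : Lat} {y y' : E3}

theorem lbox_eq (N : ℕ) (κ : ℝ) (z : Lat) : lbox N κ z = box (wd N) κ z := rfl

theorem one_le_wd {N : ℕ} (hN : 1 ≤ N) (k : Fin 3) : 1 ≤ wd N k := by
  have : (1:ℝ) ≤ N := by exact_mod_cast hN
  fin_cases k <;> simp [wd, this]

theorem mem_box {κ : ℝ} : y ∈ box ℓ κ z ↔
    ∀ k, z k * ℓ k + κ ≤ y k ∧ y k ≤ (z k + 1) * ℓ k - κ := by
  simp only [box, mem_Icc, Pi.le_def]
  exact forall_and.symm

theorem mem_dirs {k : Fin 3} : k ∈ dirs w ↔ Odd (w k) := by simp [dirs]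

theorem interior_box : interior (box ℓ 0 z) = obox ℓ z := by
  rw [box, ← pi_univ_Icc, interior_pi_set finite_univ]
  ext y
  simp [obox]

theorem mbox_eq (μ : ℝ) : mbox (slo ℓ a b w) (shi ℓ a b w) μ = cube ℓ (a + μ) (b - μ) w := by
  ext y
  simp only [mbox, mem_Icc, Pi.le_def, cube, mem_ofPred_eq, slo, shi, rad, abs_le]
  rw [← forall_and]
  refine forall_congr' fun k => ?_
  split_ifs <;> constructor <;> rintro ⟨h1, h2⟩ <;> constructor <;> linarith

theorem mem_Icc_iff : y ∈ Icc (slo ℓ a b w) (shi ℓ a b w) ↔ y ∈ cube ℓ a b w := by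
  simp only [mem_Icc, Pi.le_def, cube, mem_ofPred_eq, slo, shi, abs_le]
  rw [← forall_and]
  refine forall_congr' fun k => ?_
  constructor <;> rintro ⟨h1, h2⟩ <;> constructor <;> linarith

theorem mid_eq (k : Fin 3) : (slo ℓ a b w k + shi ℓ a b w k) / 2 = ctr ℓ w k := by
  simp only [slo, shi]; ring

theorem isClosed_cube : IsClosed (cube ℓ a b w) := by
  have : cube ℓ a b w = Icc (slo ℓ a b w) (shi ℓ a b w) := by
    ext y; exact mem_Icc_iff.symm
  rw [this]; exact isClosed_Icc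

theorem cube_mono (ha : a ≤ a') (hb : b' ≤ b) (h : y ∈ cube ℓ a b w) : y ∈ cube ℓ a' b' w := by
  intro k
  have := h k
  simp only [rad] at this ⊢
  split_ifs at this ⊢ <;> linarith

theorem abs_le_dist (y y' : E3) (k : Fin 3) : |y k - y' k| ≤ dist y y' := by
  rw [← Real.dist_eq]; exact dist_le_pi_dist y y' k

theorem cube_dist {δ : ℝ} (h : y ∈ cube ℓ a b w) (hd : dist y' y ≤ δ) :
    y' ∈ cube ℓ (a + δ) (b - δ) w := by
  intro k
  have h1 := h k
  have h2 := (abs_le_dist y' y k).trans hd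
  have h3 : |y' k - ctr ℓ w k| ≤ |y' k - y k| + |y k - ctr ℓ w k| := abs_sub_le _ _ _
  simp only [rad] at h1 ⊢
  split_ifs at h1 ⊢ <;> linarith

theorem even_ctr {k : Fin 3} (h : ¬ Odd (w k)) : ∃ n : ℤ, w k = 2 * n ∧ ctr ℓ w k = n * ℓ k := by
  obtain ⟨n, hn⟩ := Int.not_odd_iff_even.1 h
  refine ⟨n, by omega, ?_⟩
  simp only [ctr, hn]; push_cast; ring

theorem odd_ctr {k : Fin 3} (h : Odd (w k)) :
    ∃ n : ℤ, w k = 2 * n + 1 ∧ ctr ℓ w k = n * ℓ k + ℓ k / 2 := by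
  obtain ⟨n, hn⟩ := h
  refine ⟨n, hn, ?_⟩
  simp only [ctr, hn]; push_cast; ring

theorem int_step {m n : ℤ} {l : ℝ} (hl : 0 ≤ l) (h : m + 1 ≤ n) : m * l + l ≤ n * l := by
  have : ((m:ℝ) + 1) ≤ n := by exact_mod_cast h
  nlinarith

theorem int_mono {m n : ℤ} {l : ℝ} (hl : 0 ≤ l) (h : m ≤ n) : m * l ≤ n * l := by
  have : (m:ℝ) ≤ n := by exact_mod_cast h
  nlinarith

/-- in a long direction the points are far from the lattice planes -/
theorem far_planes (hℓ : ∀ k, 1 ≤ ℓ k) (h : y ∈ cube ℓ a b w) {k : Fin 3} (hk : Odd (w k))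
    (n : ℤ) : b ≤ |y k - n * ℓ k| := by
  have h1 := h k
  obtain ⟨m, -, hm⟩ := odd_ctr (ℓ := ℓ) hk
  simp only [rad, if_pos hk, hm, abs_le] at h1
  have hl : 0 ≤ ℓ k := by linarith [hℓ k]
  rcases le_or_gt n m with h2 | h2
  · have := int_mono hl h2
    exact le_abs.2 (Or.inl (by linarith [h1.1]))
  · have := int_step hl (show m + 1 ≤ n from h2)
    exact le_abs.2 (Or.inr (by linarith [h1.2]))

theorem far (hℓ : ∀ k, 1 ≤ ℓ k) (h : y ∈ cube ℓ a b w) (h' : y ∈ cube ℓ a' b' w') {k : Fin 3}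
    (hk : Odd (w k)) (hk' : ¬ Odd (w' k)) : b ≤ a' := by
  obtain ⟨n, -, hn⟩ := even_ctr (ℓ := ℓ) hk'
  have h1 := h' k
  simp only [rad, if_neg hk', hn] at h1
  exact (far_planes hℓ h hk n).trans h1

theorem sep_aux (hℓ : ∀ k, 1 ≤ ℓ k) {d : ℝ} (h0 : 0 ≤ a) (hd : 0 ≤ d) (h1 : a + d ≤ b)
    (h2 : 2 * a + d ≤ 1) (h : y ∈ cube ℓ a b w) (h' : y' ∈ cube ℓ a b w') {k : Fin 3}
    (hk : w k < w' k) : d ≤ y' k - y k := by
  have e := h k
  have e' := h' k
  have hl := hℓ k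
  have hl0 : 0 ≤ ℓ k := by linarith
  by_cases p : Odd (w k) <;> by_cases p' : Odd (w' k)
  · obtain ⟨m, hm, c⟩ := odd_ctr (ℓ := ℓ) p
    obtain ⟨n, hn, c'⟩ := odd_ctr (ℓ := ℓ) p'
    simp only [rad, if_pos p, if_pos p', c, c', abs_le] at e e'
    have := int_step hl0 (show m + 1 ≤ n by omega)
    linarith [e.2, e'.1]
  · obtain ⟨m, hm, c⟩ := odd_ctr (ℓ := ℓ) p
    obtain ⟨n, hn, c'⟩ := even_ctr (ℓ := ℓ) p'
    simp only [rad, if_pos p, if_neg p', c, c', abs_le] at e e'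
    have := int_step hl0 (show m + 1 ≤ n by omega)
    linarith [e.2, e'.1]
  · obtain ⟨m, hm, c⟩ := even_ctr (ℓ := ℓ) p
    obtain ⟨n, hn, c'⟩ := odd_ctr (ℓ := ℓ) p'
    simp only [rad, if_neg p, if_pos p', c, c', abs_le] at e e'
    have := int_mono hl0 (show m ≤ n by omega)
    linarith [e.2, e'.1]
  · obtain ⟨m, hm, c⟩ := even_ctr (ℓ := ℓ) p
    obtain ⟨n, hn, c'⟩ := even_ctr (ℓ := ℓ) p'
    simp only [rad, if_neg p, if_neg p', c, c', abs_le] at e e'
    have := int_step hl0 (show m + 1 ≤ n by omega)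
    linarith [e.2, e'.1]

/-- different sites are separated -/
theorem sep (hℓ : ∀ k, 1 ≤ ℓ k) {d : ℝ} (h0 : 0 ≤ a) (hd : 0 ≤ d) (h1 : a + d ≤ b)
    (h2 : 2 * a + d ≤ 1) (h : y ∈ cube ℓ a b w) (h' : y' ∈ cube ℓ a b w') (hne : w ≠ w') :
    d ≤ dist y y' := by
  obtain ⟨k, hk⟩ := Function.ne_iff.1 hne
  have := abs_le.1 (abs_le_dist y y' k)
  rcases lt_or_gt_of_ne hk with h3 | h3
  · linarith [sep_aux hℓ h0 hd h1 h2 h h' h3, this.1]
  · linarith [sep_aux hℓ h0 hd h1 h2 h' h h3, this.2]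

theorem rad_lt (hℓ : ∀ k, 1 ≤ ℓ k) (ha : a < 1 / 2) (hb : 0 < b) (k : Fin 3) :
    rad ℓ a b w k < ℓ k / 2 := by
  have := hℓ k
  simp only [rad]
  split_ifs <;> linarith

theorem near_aux (hℓ : ∀ k, 1 ≤ ℓ k) {k : Fin 3} (h : |ctr ℓ w k - ctr ℓ w' k| < ℓ k) :
    |w k - w' k| ≤ 1 := by
  have hl := hℓ k
  simp only [ctr, abs_lt] at h
  have h1 : ((w k : ℝ) - w' k) < 2 := by nlinarith [h.2]
  have h2 : -2 < ((w k : ℝ) - w' k) := by nlinarith [h.1]
  have h3 : w k - w' k < 2 := by exact_mod_cast h1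
  have h4 : -2 < w k - w' k := by exact_mod_cast h2
  rw [abs_le]; omega

/-- two elements whose boxes meet are neighbours -/
theorem near (hℓ : ∀ k, 1 ≤ ℓ k) (ha : a < 1 / 2) (hb : 0 < b) (ha' : a' < 1 / 2) (hb' : 0 < b')
    (h : y ∈ cube ℓ a b w) (h' : y ∈ cube ℓ a' b' w') (k : Fin 3) : |w k - w' k| ≤ 1 := by
  apply near_aux hℓ
  have e := abs_le.1 (h k)
  have e' := abs_le.1 (h' k)
  have r := rad_lt (w := w) hℓ ha hb k
  have r' := rad_lt (w := w') hℓ ha' hb' k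
  rw [abs_lt]; constructor <;> linarith [e.1, e.2, e'.1, e'.2]

theorem near_box (hℓ : ∀ k, 1 ≤ ℓ k) (ha : a < 1 / 2) (hb : 0 < b)
    (h : y ∈ cube ℓ a b w) (h' : y ∈ box ℓ 0 z) (k : Fin 3) : |w k - (2 * z k + 1)| ≤ 1 := by
  apply near_aux (w' := fun k => 2 * z k + 1) hℓ
  have e := abs_le.1 (h k)
  have e' := mem_box.1 h' k
  have r := rad_lt (w := w) hℓ ha hb k
  have c : ctr ℓ (fun k => 2 * z k + 1) k = z k * ℓ k + ℓ k / 2 := by
    simp only [ctr]; push_cast; ring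
  rw [c, abs_lt]; constructor <;> linarith [e.1, e.2, e'.1, e'.2]

/-- the big box round an element is covered by the adjacent boxes -/
theorem cover (hℓ : ∀ k, 1 ≤ ℓ k) (hz : ∀ k, |2 * z k + 1 - w k| ≤ 1) (h : y ∈ cube ℓ 1 0 w) :
    ∃ z' : Lat, (∀ k, |z' k - z k| ≤ 1) ∧ (∀ k, |2 * z' k + 1 - w k| ≤ 1) ∧ y ∈ box ℓ 0 z' := by
  have key : ∀ k, ∃ m : ℤ, |m - z k| ≤ 1 ∧ |2 * m + 1 - w k| ≤ 1 ∧
      m * ℓ k + 0 ≤ y k ∧ y k ≤ (m + 1) * ℓ k - 0 := by
    intro k
    have e := h k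
    have e1 := abs_le.1 (hz k)
    have hl := hℓ k
    by_cases p : Odd (w k)
    · obtain ⟨m, hm, c⟩ := odd_ctr (ℓ := ℓ) p
      simp only [rad, if_pos p, c, abs_le] at e
      refine ⟨m, by rw [abs_le]; omega, by rw [abs_le]; omega, by linarith [e.1], by linarith [e.2]⟩
    · obtain ⟨m, hm, c⟩ := even_ctr (ℓ := ℓ) p
      simp only [rad, if_neg p, c, abs_le] at e
      rcases le_total (y k) (m * ℓ k) with h1 | h1
      · refine ⟨m - 1, by rw [abs_le]; omega, by rw [abs_le]; omega, ?_, ?_⟩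
        · push_cast; linarith [e.1]
        · push_cast; linarith
      · exact ⟨m, by rw [abs_le]; omega, by rw [abs_le]; omega, by linarith, by linarith [e.2]⟩
  choose m h1 h2 h3 using key
  exact ⟨m, h1, h2, mem_box.2 h3⟩

theorem mem_nbr {B : Set Lat} {z' : Lat} (hz : z ∈ B) (h : ∀ k, |z' k - z k| ≤ 1) :
    z' ∈ nbr 1 B := ⟨z, hz, fun k => by simpa using h k⟩

theorem self_nbr {B : Set Lat} (hz : z ∈ B) : z ∈ nbr 1 B := mem_nbr hz fun k => by simp

theorem cover_site (hℓ : ∀ k, 1 ≤ ℓ k) {B : Set Lat} {d : ℕ} (hw : w ∈ sites B d)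
    (h : y ∈ cube ℓ 1 0 w) :
    ∃ z' ∈ nbr 1 B, (∀ k, |2 * z' k + 1 - w k| ≤ 1) ∧ y ∈ box ℓ 0 z' := by
  obtain ⟨-, z, hz, hzw⟩ := hw
  obtain ⟨z', h1, h2, h3⟩ := cover hℓ hzw h
  exact ⟨z', mem_nbr hz h1, h2, h3⟩

theorem mem_interior_site (hℓ : ∀ k, 1 ≤ ℓ k) {B : Set Lat} {d : ℕ} (hw : w ∈ sites B d)
    (ha : a ≤ 1 / 2) (hb : 1 / 100 ≤ b) (h : y ∈ cube ℓ a b w) :
    y ∈ interior (⋃ z ∈ nbr 1 B, box ℓ 0 z) := by
  rw [mem_interior_iff_mem_nhds]
  filter_upwards [closedBall_mem_nhds y (show (0:ℝ) < 1 / 100 by norm_num)] with u hu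
  obtain ⟨z', h1, -, h3⟩ := cover_site hℓ hw
    (cube_mono (by linarith) (by linarith) (cube_dist h (mem_closedBall.1 hu)))
  exact mem_biUnion h1 h3

theorem finite_near (z : Lat) (f : Lat → Lat) (r : ℤ) :
    {w : Lat | ∀ k, |f z k - w k| ≤ r}.Finite := by
  refine (finite_Icc (fun k => f z k - r) (fun k => f z k + r)).subset fun w hw => ?_
  constructor <;> intro k <;> have := abs_le.1 (hw k) <;> simp only <;> omega

theorem finite_sites {B : Set Lat} (hB : B.Finite) (d : ℕ) : (sites B d).Finite := by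
  refine (hB.biUnion fun z _ => finite_near z (fun z k => 2 * z k + 1) 1).subset ?_
  rintro w ⟨-, z, hz, h⟩
  exact mem_biUnion hz h

theorem finite_nbr {B : Set Lat} (hB : B.Finite) (r : ℕ) : (nbr r B).Finite := by
  refine (hB.biUnion fun z _ => finite_near z (fun z => z) r).subset ?_
  rintro w ⟨z, hz, h⟩
  exact mem_biUnion hz fun k => by rw [abs_sub_comm]; exact h k

/-! ### moves -/

variable {Ψ : E3 → E3}

theorem abs_le_of_uIcc {m u v : ℝ} (h : v ∈ uIcc m u) : |v - m| ≤ |u - m| ∧ |v - u| ≤ |u - m| := by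
  rcases le_total m u with h1 | h1
  · rw [uIcc_of_le h1] at h
    rw [abs_of_nonneg (by linarith [h.1] : 0 ≤ v - m), abs_of_nonneg (by linarith : 0 ≤ u - m),
      abs_of_nonpos (by linarith [h.2] : v - u ≤ 0)]
    constructor <;> linarith [h.1, h.2]
  · rw [uIcc_of_ge h1] at h
    rw [abs_of_nonpos (by linarith [h.2] : v - m ≤ 0), abs_of_nonpos (by linarith : u - m ≤ 0),
      abs_of_nonneg (by linarith [h.1] : 0 ≤ v - u)]
    constructor <;> linarith [h.1, h.2]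

theorem Mv.dist_le (h : Mv ℓ A Ψ) (hA : 0 ≤ A) (y : E3) : dist (Ψ y) y ≤ A := by
  rw [dist_pi_le_iff hA]
  intro k
  rw [Real.dist_eq]
  rcases h y k with h1 | ⟨n, h1, h2⟩
  · rw [h1, sub_self, abs_zero]; exact hA
  · exact (abs_le_of_uIcc h2).2.trans h1

theorem Mv.fix (h : Mv ℓ A Ψ) {k : Fin 3} (hk : ∀ n : ℤ, A < |y k - n * ℓ k|) : Ψ y k = y k := by
  rcases h y k with h1 | ⟨n, h1, -⟩
  · exact h1
  · exact absurd (hk n) (not_lt.2 h1)

theorem Mv.stay (h : Mv ℓ A Ψ) (hℓ : ∀ k, 1 ≤ ℓ k) (ha : a + A < 1) (hb : A < b)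
    (hy : y ∈ cube ℓ a b w) : Ψ y ∈ cube ℓ a b w := by
  intro k
  have hl := hℓ k
  by_cases p : Odd (w k)
  · rw [h.fix fun n => hb.trans_le (far_planes hℓ hy p n)]
    exact hy k
  · rcases h y k with h1 | ⟨n, h1, h2⟩
    · rw [h1]; exact hy k
    · obtain ⟨m, -, c⟩ := even_ctr (ℓ := ℓ) p
      have e := hy k
      simp only [rad, if_neg p, c] at e ⊢
      have hnm : n = m := by
        have e1 := abs_le.1 e
        have e2 := abs_le.1 h1
        rcases lt_trichotomy n m with h3 | h3 | h3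
        · have := int_step (l := ℓ k) (by linarith) (show n + 1 ≤ m from h3)
          linarith [e1.1, e2.2]
        · exact h3
        · have := int_step (l := ℓ k) (by linarith) (show m + 1 ≤ n from h3)
          linarith [e1.2, e2.1]
      rw [← hnm] at e ⊢
      exact (abs_le_of_uIcc h2).1.trans e

theorem Mv.keep (h : Mv ℓ A Ψ) (hℓ : ∀ k, 1 ≤ ℓ k) (hA : A < 1) (hy : y ∈ box ℓ 0 z) :
    Ψ y ∈ box ℓ 0 z := by
  rw [mem_box] at hy ⊢
  intro k
  have hl := hℓ k
  have e := hy k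
  rcases h y k with h1 | ⟨n, h1, h2⟩
  · rw [h1]; exact e
  · have e2 := abs_le.1 h1
    have a1 : z k * ℓ k ≤ n * ℓ k := by
      by_contra hc
      have h3 : n + 1 ≤ z k := by
        by_contra h4
        exact hc (int_mono (by linarith) (by omega))
      have := int_step (l := ℓ k) (by linarith) h3
      linarith [e.1, e2.2]
    have a2 : n * ℓ k ≤ (z k + 1) * ℓ k := by
      by_contra hc
      have h3 : (z k + 1) + 1 ≤ n := by
        by_contra h4
        have := int_mono (l := ℓ k) (by linarith) (show n ≤ z k + 1 by omega)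
        push_cast at this
        exact hc this
      have := int_step (l := ℓ k) (by linarith) h3
      push_cast at this
      linarith [e.2, e2.1]
    rcases mem_uIcc.1 h2 with h3 | h3 <;> constructor <;> linarith [h3.1, h3.2, e.1, e.2]

theorem Mv.back (h : Mv ℓ A Ψ) (hℓ : ∀ k, 1 ≤ ℓ k) (hA : A < 1) (hy : Ψ y ∈ obox ℓ z) :
    y ∈ obox ℓ z := by
  intro k
  have hl := hℓ k
  have e := hy k
  rcases h y k with h1 | ⟨n, h1, h2⟩
  · rw [← h1]; exact e
  · have e2 := abs_le.1 h1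
    rcases le_or_gt n (z k) with h3 | h3
    · have := int_mono (l := ℓ k) (by linarith) h3
      rcases mem_uIcc.1 h2 with h4 | h4 <;> constructor <;> linarith [h4.1, h4.2, e.1, e.2]
    · have := int_step (l := ℓ k) (by linarith) (show z k + 1 ≤ n from h3)
      rcases mem_uIcc.1 h2 with h4 | h4 <;> constructor <;> linarith [h4.1, h4.2, e.1, e.2]

theorem sign_obox (hℓ : ∀ k, 1 ≤ ℓ k) (hy : y ∈ obox ℓ z) (hy' : y' ∈ obox ℓ z) (k : Fin 3)
    (n : ℤ) : 0 < (y k - n * ℓ k) * (y' k - n * ℓ k) := by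
  have hl := hℓ k
  have e := hy k
  have e' := hy' k
  rcases le_or_gt n (z k) with h3 | h3
  · have := int_mono (l := ℓ k) (by linarith) h3
    exact mul_pos (by linarith [e.1]) (by linarith [e'.1])
  · have := int_step (l := ℓ k) (by linarith) (show z k + 1 ≤ n from h3)
    exact mul_pos_of_neg_of_neg (by linarith [e.2]) (by linarith [e'.2])

/-! ### rim and deep points -/

theorem odd_of_card (hw : (dirs w).card = 2) {i k : Fin 3} (hi : i ∉ dirs w) (hk : k ≠ i) :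
    Odd (w k) := by
  by_contra hc
  have h1 : (dirs w)ᶜ.card ≤ 1 := by
    rw [Finset.card_compl, hw]; simp
  exact hk (Finset.card_le_one.1 h1 k (Finset.mem_compl.2 fun h => hc (mem_dirs.1 h)) i
    (Finset.mem_compl.2 hi))

/-- the rim lies deep in holes -/
theorem rim (hℓ : ∀ k, 1 ≤ ℓ k) {B : Set Lat} {d : ℕ} (hw : w ∈ sites B d)
    (hy : y ∈ Rim (slo ℓ (2 / 100) (4 / 100) w) (shi ℓ (2 / 100) (4 / 100) w) (dirs w))
    (hd : dist y' y ≤ 1 / 100) : ∃ z ∈ nbr 1 B, y' ∈ box ℓ (1 / 200) z := by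
  obtain ⟨h1, h2, i, hi, h3⟩ := hy
  have hc := mem_Icc_iff.1 h1
  obtain ⟨z', hz', hn, hb⟩ := cover_site hℓ hw (cube_mono (by norm_num) (by norm_num) hc)
  refine ⟨z', hz', mem_box.2 fun k => ?_⟩
  have e := mem_box.1 hb k
  have e1 := abs_le.1 ((abs_le_dist y' y k).trans hd)
  have hl := hℓ k
  have f : ∀ n : ℤ, 2 / 100 ≤ |y k - n * ℓ k| := by
    intro n
    by_cases hk : k = i
    · subst hk
      have p : ¬ Odd (w k) := fun h => hi (mem_dirs.2 h)
      obtain ⟨m, -, c⟩ := even_ctr (ℓ := ℓ) p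
      simp only [slo, shi, rad, if_neg p, c] at h3
      rcases lt_trichotomy n m with h4 | h4 | h4
      · have := int_step (l := ℓ k) (by linarith) (show n + 1 ≤ m from h4)
        refine le_abs.2 (Or.inl ?_)
        rcases h3 with h3 | h3 <;> linarith
      · rw [h4]
        rcases h3 with h3 | h3
        · exact le_abs.2 (Or.inr (by linarith))
        · exact le_abs.2 (Or.inl (by linarith))
      · have := int_step (l := ℓ k) (by linarith) (show m + 1 ≤ n from h4)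
        refine le_abs.2 (Or.inr ?_)
        rcases h3 with h3 | h3 <;> linarith
    · exact le_trans (by norm_num) (far_planes hℓ hc (odd_of_card h2 hi hk) n)
  have f1 := f (z' k)
  have f2 := f (z' k + 1)
  push_cast at f2
  rw [abs_of_nonneg (by linarith [e.1])] at f1
  rw [abs_of_nonpos (by linarith [e.2])] at f2
  constructor <;> linarith [e1.1, e1.2]

theorem deep_of {g : E3 → E3} {X : Set E3} {r : ℝ} (h : ∀ x ∈ X, g x ∈ cube ℓ a' b' w)
    (ha : a' + r ≤ a) (hb : b + r ≤ b') : Deep g X (slo ℓ a b w) (shi ℓ a b w) r := by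
  intro x hx i
  have e := h x hx i
  simp only [slo, shi, rad, abs_le] at e ⊢
  split_ifs at e ⊢ <;> constructor <;> linarith [e.1, e.2]

/-- the faces of the box `z` which are near the point `y` -/
theorem exists_face (hy : y ∈ box ℓ 0 z) : ∃ t : Fin 3 → ℝ,
    (∀ κ, (∀ k, κ ≤ t k) → y ∈ box ℓ κ z) ∧ ∀ T : Finset (Fin 3), ∃ w : Lat, dirs w = Tᶜ ∧
      (∀ k, |2 * z k + 1 - w k| ≤ 1) ∧
      ∀ a b, (∀ k ∈ T, t k ≤ a) → (∀ k, k ∉ T → b ≤ t k) → y ∈ cube ℓ a b w := by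
  classical
  refine ⟨fun k => min (y k - z k * ℓ k) ((z k + 1) * ℓ k - y k), fun κ h => mem_box.2 fun k => ?_,
    fun T => ?_⟩
  · have := le_min_iff.1 (h k)
    constructor <;> linarith [this.1, this.2]
  · refine ⟨fun k => if k ∈ T then
      (if y k - z k * ℓ k ≤ (z k + 1) * ℓ k - y k then 2 * z k else 2 * (z k + 1))
      else 2 * z k + 1, ?_, fun k => ?_, fun a b h1 h2 k => ?_⟩
    · ext k
      rw [mem_dirs, Finset.mem_compl]
      split_ifs with p q
      · simp [p]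
      · simp [p]
      · simp [p]
    · simp only
      split_ifs <;> rw [abs_le] <;> omega
    · have e := mem_box.1 hy k
      by_cases p : k ∈ T
      · have e1 := h1 k p
        by_cases q : y k - z k * ℓ k ≤ (z k + 1) * ℓ k - y k
        · simp only [min_eq_left q] at e1
          have o : ¬ Odd (2 * z k) := by simp
          simp only [ctr, rad, if_pos p, if_pos q, if_neg o]
          push_cast
          rw [abs_le]; constructor <;> linarith [e.1]
        · simp only [min_eq_right (not_le.1 q).le] at e1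
          have o : ¬ Odd (2 * (z k + 1)) := by simp
          simp only [ctr, rad, if_pos p, if_neg q, if_neg o]
          push_cast
          rw [abs_le]; constructor <;> linarith [e.2]
      · have e1 := le_min_iff.1 (h2 k p)
        have o : Odd (2 * z k + 1) := odd_two_mul_add_one _
        simp only [ctr, rad, if_neg p, if_pos o]
        push_cast
        rw [abs_le]; constructor <;> linarith [e1.1, e1.2]

end P073.Rd
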