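import Vale.Agent.P073Y.Rd.Lat
import Vale.Agent.P073Y.Rd.Par

/-!
# One parallel stage
-/

open Set Metric Topology Filter
open scoped NNReal

namespace P073.Rd

open P073.Top

variable {Ω Λ : Set E3}

/-- the result of a parallel stage; `A`, `Bb` are the radii of the supports -/
structure PS (K C : ℝ≥0) (St : StT Ω Λ) (ℓ : E3) (a b A Bb : ℝ) (W : Set Lat) (os : Lat → ℝ)
    (g g' : ConHomeo Ω Λ) (Ψ : E3 → E3) : Prop where
  off : ∀ x ∈ Ω, (∀ w ∈ W, g.toFun x ∉ cube ℓ A Bb w) → g'.toFun x = g.toFun x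
  on : ∀ w ∈ W, ∃ h, St g h (slo ℓ a b w) (shi ℓ a b w) (os w) (dirs w) ∧
    ∀ x ∈ Ω, (∀ w' ∈ W, w' ≠ w → g.toFun x ∉ cube ℓ A Bb w') → g'.toFun x = h.toFun x
  err : ∀ x ∈ Ω, ∀ t : ℝ, 0 ≤ t → (∀ w ∈ W, g.toFun x ∈ cube ℓ A Bb w → os w ≤ t) →
    dist (g'.toFun x) (Ψ (g.toFun x)) ≤ K * t
  fix : ∀ y, (∀ w ∈ W, y ∉ cube ℓ A Bb w) → Ψ y = y
  mv : Mv ℓ A Ψ
  lip : ∀ y y', dist (Ψ y) (Ψ y') ≤ (C + 25) * dist y y'
  inv : ∀ z y y', Ψ y ∈ obox ℓ z → Ψ y' ∈ obox ℓ z → dist y y' ≤ (C + 25) * dist (Ψ y) (Ψ y')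

theorem pstep {K C : ℝ≥0} {S : Src Ω} {St : StT Ω Λ} (hS : Stg K C S St) {ℓ : E3}
    (hℓ : ∀ k, 1 ≤ ℓ k) {a b μ : ℝ} (hμ : 0 < μ) (h1 : μ ≤ 2 * a) (h2 : a ≤ 8 * μ)
    (h3 : a + μ + 1 / 100 ≤ b - μ) (h4 : a + μ ≤ 11 / 100) (h5 : b ≤ 1 / 4) {W : Set Lat}
    (hW : W.Finite) (os : Lat → ℝ) (g : ConHomeo Ω Λ)
    (hw : ∀ w ∈ W, (dirs w).card ≤ 2 ∧ 0 < os w ∧ K * os w ≤ μ ∧
      cube ℓ (a + μ) (b - μ) w ⊆ Λ ∧ S.Osc g.toFun (cube ℓ (a + μ) (b - μ) w) (os w)) :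
    ∃ g' Ψ, PS K C St ℓ a b (a + μ) (b - μ) W os g g' Ψ := by
  classical
  have ha : 0 < a := by linarith
  have hex : ∀ w : W, ∃ (h : ConHomeo Ω Λ) (Ψ : E3 → E3),
      Coll (slo ℓ a b w) (shi ℓ a b w) μ (dirs w) C Ψ ∧
      (∀ x ∈ Ω, g.toFun x ∉ interior (mbox (slo ℓ a b w) (shi ℓ a b w) μ) →
        h.toFun x = g.toFun x) ∧
      (∀ x ∈ Ω, dist (h.toFun x) (Ψ (g.toFun x)) ≤ K * os w) ∧
      St g h (slo ℓ a b w) (shi ℓ a b w) (os w) (dirs w) := by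
    rintro ⟨w, hwW⟩
    obtain ⟨e1, e2, e3, e4, e5⟩ := hw w hwW
    refine hS g _ _ μ (os w) (dirs w) e1 e2 e3 (fun i => ?_) (fun i hi => ?_) ?_ ?_
    · have := hℓ i
      simp only [slo, shi, rad]
      split_ifs <;> linarith
    · have p : ¬ Odd (w i) := fun h => hi (mem_dirs.2 h)
      simp only [slo, shi, rad, if_neg p]
      linarith
    · rw [mbox_eq]; exact e4
    · rw [mbox_eq]; exact e5
  choose h φ hC hoff herr hSt using hex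
  have hsep : ∀ {w w' : Lat} {y y' : E3}, y ∈ cube ℓ (a + μ) (b - μ) w →
      y' ∈ cube ℓ (a + μ) (b - μ) w' → w ≠ w' → 1 / 100 ≤ dist y y' := fun hy hy' hne =>
    sep hℓ (by linarith) (by norm_num) h3 (by linarith) hy hy' hne
  have huniq : ∀ {w w' : Lat} {y : E3}, y ∈ cube ℓ (a + μ) (b - μ) w →
      y ∈ cube ℓ (a + μ) (b - μ) w' → w = w' := by
    intro w w' y hy hy'
    by_contra hne
    have := hsep hy hy' hne
    rw [dist_self] at this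
    norm_num at this
  have hoff' : ∀ w : W, ∀ x ∈ Ω, g.toFun x ∉ cube ℓ (a + μ) (b - μ) w →
      (h w).toFun x = g.toFun x := fun w x hx hn =>
    hoff w x hx fun hi => hn (by rw [← mbox_eq]; exact interior_subset hi)
  have φoff : ∀ w : W, ∀ y, y ∉ cube ℓ (a + μ) (b - μ) w → φ w y = y := fun w y hn =>
    (hC w).off y fun hi => hn (by rw [← mbox_eq]; exact interior_subset hi)
  have : Finite W := hW.to_subtype
  obtain ⟨H, H0, H1⟩ := par g h (fun w : W => cube ℓ (a + μ) (b - μ) w)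
    (fun w y _ hy => by rwa [isClosed_cube.closure_eq] at hy)
    (fun y _ => ⟨univ, univ_mem, toFinite _⟩)
    (fun i j hij => disjoint_left.2 fun y hy hy' => hij (Subtype.ext (huniq hy hy'))) hoff'
  let Ψ : E3 → E3 := fun y =>
    if hy : ∃ w : W, y ∈ cube ℓ (a + μ) (b - μ) w then φ hy.choose y else y
  have Ψ0 : ∀ y, (∀ w ∈ W, y ∉ cube ℓ (a + μ) (b - μ) w) → Ψ y = y := by
    intro y hy
    simp only [Ψ]
    rw [dif_neg]
    rintro ⟨w, hw'⟩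
    exact hy w w.2 hw'
  have Ψ1 : ∀ (w : W) y, y ∈ cube ℓ (a + μ) (b - μ) w → Ψ y = φ w y := by
    intro w y hy
    have hex : ∃ w : W, y ∈ cube ℓ (a + μ) (b - μ) w := ⟨w, hy⟩
    simp only [Ψ]
    rw [dif_pos hex, show hex.choose = w from Subtype.ext (huniq hex.choose_spec hy)]
  have hmv : Mv ℓ (a + μ) Ψ := by
    intro y k
    by_cases hy : ∃ w : W, y ∈ cube ℓ (a + μ) (b - μ) w
    · obtain ⟨w, hy⟩ := hy
      rw [Ψ1 w y hy]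
      by_cases p : Odd (w.1 k)
      · exact Or.inl ((hC w).fix y k (mem_dirs.2 p))
      · obtain ⟨n, -, c⟩ := even_ctr (ℓ := ℓ) p
        have e := hy k
        have e' := (hC w).mono y k fun hk => p (mem_dirs.1 hk)
        rw [mid_eq, c] at e'
        simp only [rad, if_neg p, c] at e
        exact Or.inr ⟨n, e, e'⟩
    · left
      rw [Ψ0 y fun w hw' hy' => hy ⟨⟨w, hw'⟩, hy'⟩]
  have hC0 : (0:ℝ) ≤ C := C.2
  -- two points: one site or two different sites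
  have two : ∀ y y', (Ψ y = y ∧ Ψ y' = y') ∨ (∃ w : W, Ψ y = φ w y ∧ Ψ y' = φ w y') ∨
      ∃ w w' : Lat, w ≠ w' ∧ y ∈ cube ℓ (a + μ) (b - μ) w ∧ y' ∈ cube ℓ (a + μ) (b - μ) w' := by
    intro y y'
    by_cases hy : ∃ w : W, y ∈ cube ℓ (a + μ) (b - μ) w <;>
      by_cases hy' : ∃ w : W, y' ∈ cube ℓ (a + μ) (b - μ) w
    · obtain ⟨w, hy⟩ := hy
      obtain ⟨w', hy'⟩ := hy'
      by_cases hne : w = w'
      · subst hne
        exact Or.inr (Or.inl ⟨w, Ψ1 w y hy, Ψ1 w y' hy'⟩)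
      · exact Or.inr (Or.inr ⟨w, w', fun e => hne (Subtype.ext e), hy, hy'⟩)
    · obtain ⟨w, hy⟩ := hy
      refine Or.inr (Or.inl ⟨w, Ψ1 w y hy, ?_⟩)
      rw [Ψ0 y' fun w hw' h' => hy' ⟨⟨w, hw'⟩, h'⟩, φoff w y' fun h' => hy' ⟨w, h'⟩]
    · obtain ⟨w, hy'⟩ := hy'
      refine Or.inr (Or.inl ⟨w, ?_, Ψ1 w y' hy'⟩)
      rw [Ψ0 y fun w hw' h' => hy ⟨⟨w, hw'⟩, h'⟩, φoff w y fun h' => hy ⟨w, h'⟩]
    · exact Or.inl ⟨Ψ0 y fun w hw' h' => hy ⟨⟨w, hw'⟩, h'⟩,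
        Ψ0 y' fun w hw' h' => hy' ⟨⟨w, hw'⟩, h'⟩⟩
  refine ⟨H, Ψ, fun x hx hn => H0 x hx fun w => hn w w.2, fun w hwW => ⟨h ⟨w, hwW⟩, hSt ⟨w, hwW⟩,
    fun x hx hn => H1 ⟨w, hwW⟩ x hx fun j hj => hn j j.2 fun e => hj (Subtype.ext e)⟩,
    fun x hx t ht hn => ?_, Ψ0, hmv, fun y y' => ?_, fun z y y' hy hy' => ?_⟩
  · by_cases hy : ∃ w : W, g.toFun x ∈ cube ℓ (a + μ) (b - μ) w
    · obtain ⟨w, hy⟩ := hy
      rw [Ψ1 w _ hy, H1 w x hx fun j hj hy' => hj (Subtype.ext (huniq hy' hy))]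
      exact (herr w x hx).trans (mul_le_mul_of_nonneg_left (hn w w.2 hy) K.2)
    · rw [Ψ0 _ fun w hw' h' => hy ⟨⟨w, hw'⟩, h'⟩, H0 x hx fun w h' => hy ⟨w, h'⟩, dist_self]
      exact mul_nonneg K.2 ht
  · have d0 := dist_nonneg (x := y) (y := y')
    rcases two y y' with ⟨e, e'⟩ | ⟨w, e, e'⟩ | ⟨w, w', hne, e, e'⟩
    · rw [e, e']; nlinarith
    · rw [e, e']
      have := (hC w).lip.dist_le_mul y y'
      nlinarith
    · have d1 := hsep e e' hne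
      have d2 := hmv.dist_le (by linarith) y
      have d3 := hmv.dist_le (by linarith) y'
      have d4 := dist_triangle4 (Ψ y) y y' (Ψ y')
      rw [dist_comm y' (Ψ y')] at d4
      nlinarith
  · have d0 := dist_nonneg (x := Ψ y) (y := Ψ y')
    rcases two y y' with ⟨e, e'⟩ | ⟨w, e, e'⟩ | ⟨w, w', hne, e, e'⟩
    · rw [e, e'] at d0 ⊢; nlinarith
    · have := (hC w).inv y y' fun i hi => by
        obtain ⟨n, -, c⟩ := even_ctr (ℓ := ℓ) (w := w.1) (k := i) fun p => hi (mem_dirs.2 p)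
        rw [mid_eq, c, ← e, ← e']
        exact sign_obox hℓ hy hy' i n
      rw [← e, ← e'] at this
      nlinarith
    · have s1 : Ψ y ∈ cube ℓ (a + μ) (b - μ) w :=
        hmv.stay hℓ (by linarith) (by linarith) e
      have s2 : Ψ y' ∈ cube ℓ (a + μ) (b - μ) w' :=
        hmv.stay hℓ (by linarith) (by linarith) e'
      have d1 := hsep s1 s2 hne
      have d2 := hmv.dist_le (by linarith) y
      have d3 := hmv.dist_le (by linarith) y'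
      have d4 := dist_triangle4 y (Ψ y) (Ψ y') y'
      rw [dist_comm y (Ψ y)] at d4
      nlinarith

namespace PS

variable {K C : ℝ≥0} {St : StT Ω Λ} {ℓ : E3} {a b A Bb : ℝ} {W : Set Lat} {os : Lat → ℝ}
  {g g' : ConHomeo Ω Λ} {Ψ : E3 → E3}

theorem err' (h : PS K C St ℓ a b A Bb W os g g' Ψ) (hs : ∀ w ∈ W, K * os w ≤ 1 / 1000)
    (hK : 1 ≤ K) {x : E3} (hx : x ∈ Ω) : dist (g'.toFun x) (Ψ (g.toFun x)) ≤ 1 / 1000 := by
  have hK' : (1:ℝ) ≤ K := hK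
  have hK0 : (0:ℝ) < K := by linarith
  have := h.err x hx (1 / 1000 / K) (by positivity) fun w hw _ => by
    rw [le_div_iff₀ hK0, mul_comm]; exact hs w hw
  rwa [mul_div_cancel₀ _ hK0.ne'] at this

theorem disp (h : PS K C St ℓ a b A Bb W os g g' Ψ) (hs : ∀ w ∈ W, K * os w ≤ 1 / 1000)
    (hK : 1 ≤ K) (hA : 0 ≤ A) {x : E3} (hx : x ∈ Ω) :
    dist (g.toFun x) (g'.toFun x) ≤ A + 1 / 1000 := by
  have d1 := h.err' hs hK hx
  have d2 := h.mv.dist_le hA (g.toFun x)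
  have d3 := dist_triangle (g'.toFun x) (Ψ (g.toFun x)) (g.toFun x)
  rw [dist_comm]
  linarith

theorem stay (h : PS K C St ℓ a b A Bb W os g g' Ψ) (hs : ∀ w ∈ W, K * os w ≤ 1 / 1000)
    (hK : 1 ≤ K) (hℓ : ∀ k, 1 ≤ ℓ k) {x : E3} (hx : x ∈ Ω) {a' b' : ℝ} {w : Lat}
    (ha : a' + A < 1) (hb : A < b') (hy : g.toFun x ∈ cube ℓ a' b' w) :
    g'.toFun x ∈ cube ℓ (a' + 1 / 1000) (b' - 1 / 1000) w :=
  cube_dist (h.mv.stay hℓ ha hb hy) (h.err' hs hK hx)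

theorem osc (h : PS K C St ℓ a b A Bb W os g g' Ψ) {x x' : E3} (hx : x ∈ Ω) (hx' : x' ∈ Ω)
    {t : ℝ} (ht : 0 ≤ t) (h1 : ∀ w ∈ W, g.toFun x ∈ cube ℓ A Bb w → os w ≤ t)
    (h2 : ∀ w ∈ W, g.toFun x' ∈ cube ℓ A Bb w → os w ≤ t)
    (h3 : dist (g.toFun x) (g.toFun x') ≤ t) :
    dist (g'.toFun x) (g'.toFun x') ≤ (C + 25 + 2 * K) * t := by
  have d1 := h.err x hx t ht h1
  have d2 := h.err x' hx' t ht h2
  have d3 := h.lip (g.toFun x) (g.toFun x')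
  have d4 := dist_triangle4 (g'.toFun x) (Ψ (g.toFun x)) (Ψ (g.toFun x')) (g'.toFun x')
  rw [dist_comm (Ψ (g.toFun x')) (g'.toFun x')] at d4
  have hC0 : (0:ℝ) ≤ C := C.2
  have d5 : ((C:ℝ) + 25) * dist (g.toFun x) (g.toFun x') ≤ (C + 25) * t :=
    mul_le_mul_of_nonneg_left h3 (by linarith)
  linarith

/-- a small set which meets the support of a site sees this site only -/
theorem eqOn (h : PS K C St ℓ a b A Bb W os g g' Ψ) (hℓ : ∀ k, 1 ≤ ℓ k) (hA : 0 ≤ A)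
    (h1 : A + 1 / 100 ≤ Bb) (h2 : A ≤ 11 / 100) {X : Set E3} (hX : X ⊆ Ω) {w : Lat} (hw : w ∈ W)
    (hn : ∀ x ∈ X, ∃ y ∈ cube ℓ A Bb w, dist y (g.toFun x) ≤ 1 / 1000) :
    ∃ h', St g h' (slo ℓ a b w) (shi ℓ a b w) (os w) (dirs w) ∧ EqOn g'.toFun h'.toFun X := by
  obtain ⟨h', e1, e2⟩ := h.on w hw
  refine ⟨h', e1, fun x hx => e2 x (hX hx) fun w' _ hne hy' => ?_⟩
  obtain ⟨y, hy, hd⟩ := hn x hx
  have := sep (d := 1 / 100) hℓ hA (by norm_num) h1 (by linarith) hy hy' hne.symm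
  linarith

end PS

end P073.Rd
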