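import Vale.Agent.P073Y.Rd.Step

/-!
# The geometry of a round
-/

open Set Metric Topology Filter
open scoped NNReal

namespace P073.Rd

open P073.Top

/-- the largest oscillation bound near the element `w` -/
noncomputable def om (B : Set Lat) (o : Lat → ℝ) (w : Lat) (j : ℤ) : ℝ :=
  sSup (o '' {z ∈ nbr 1 B | ∀ k, |2 * z k + 1 - w k| ≤ j})

section
variable {B : Set Lat} {o : Lat → ℝ} {w w' z : Lat} {j j' : ℤ}

theorem le_om (hB : B.Finite) (hz : z ∈ nbr 1 B) (h : ∀ k, |2 * z k + 1 - w k| ≤ j) :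
    o z ≤ om B o w j :=
  le_csSup (((finite_nbr hB 1).subset fun _ h => h.1).image o).bddAbove ⟨z, ⟨hz, h⟩, rfl⟩

theorem om_le {t : ℝ} (ht : 0 ≤ t)
    (h : ∀ z ∈ nbr 1 B, (∀ k, |2 * z k + 1 - w k| ≤ j) → o z ≤ t) : om B o w j ≤ t :=
  Real.sSup_le (by rintro _ ⟨z, hz, rfl⟩; exact h z hz.1 hz.2) ht

theorem om_nonneg (ho : ∀ z ∈ nbr 1 B, 0 < o z) : 0 ≤ om B o w j :=
  Real.sSup_nonneg (by rintro _ ⟨z, hz, rfl⟩; exact (ho z hz.1).le)

theorem om_mono (hB : B.Finite) (ho : ∀ z ∈ nbr 1 B, 0 < o z) {i : ℤ}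
    (h : ∀ k, |w k - w' k| ≤ i) (hj : j + i ≤ j') : om B o w j ≤ om B o w' j' :=
  om_le (om_nonneg ho) fun z hz h1 => le_om hB hz fun k => by
    have a := abs_le.1 (h1 k)
    have b := abs_le.1 (h k)
    rw [abs_le]; omega

theorem om_pos (hB : B.Finite) (ho : ∀ z ∈ nbr 1 B, 0 < o z) {d : ℕ} (hw : w ∈ sites B d)
    (hj : 1 ≤ j) : 0 < om B o w j := by
  obtain ⟨-, z, hz, h⟩ := hw
  exact (ho z (self_nbr hz)).trans_le (le_om hB (self_nbr hz) fun k => (h k).trans hj)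

end

variable {Ω Λ : Set E3}

theorem cell_sub (S : Src Ω) (c : S.Q.ι) : S.Q.cell c ⊆ Ω :=
  (subset_iUnion S.Q.cell c).trans S.carrier.le

theorem tri3 : ∀ k₀ k₁ k₂ k : Fin 3, k₁ ≠ k₀ → k₂ ≠ k₀ → k₂ ≠ k₁ → k = k₀ ∨ k = k₁ ∨ k = k₂ := by
  decide

theorem rim_empty {lo hi : E3} {J : Finset (Fin 3)} (h : J.card ≠ 2) : Rim lo hi J = ∅ :=
  eq_empty_of_forall_notMem fun _ hy => h hy.2.1

theorem alt_of {K C : ℝ≥0} {S : Src Ω} {St : StT Ω Λ} {ℓ : E3} {a b A Bb : ℝ} {W : Set Lat}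
    {os : Lat → ℝ} {g g' : ConHomeo Ω Λ} {Ψ : E3 → E3} (h : PS K C St ℓ a b A Bb W os g g' Ψ)
    (hℓ : ∀ k, 1 ≤ ℓ k) (hA : 0 ≤ A) (h1 : A + 1 / 100 ≤ Bb) (h2 : A ≤ 11 / 100)
    (hs : ∀ w ∈ W, os w ≤ 1 / 1000) (ho : ∀ w ∈ W, S.Osc g.toFun (cube ℓ A Bb w) (os w))
    (c : S.Q.ι) {P : Prop} (hP : ∀ w ∈ W, P →
      Away g.toFun (S.Q.cell c) (Rim (slo ℓ a b w) (shi ℓ a b w) (dirs w)) (2 * os w)) :
    Alt St P g g' (S.Q.cell c) := by
  by_cases hx : ∃ w ∈ W, ∃ x ∈ S.Q.cell c, g.toFun x ∈ cube ℓ A Bb w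
  · obtain ⟨w, hw, x, hx, hy⟩ := hx
    obtain ⟨h', e1, e2⟩ := h.eqOn hℓ hA h1 h2 (cell_sub S c) hw fun x' hx' =>
      ⟨_, hy, (ho w hw c ⟨_, mem_image_of_mem _ hx, hy⟩ x hx x' hx').trans (hs w hw)⟩
    exact Or.inr ⟨h', _, _, _, _, e1, e2, hP w hw⟩
  · exact Or.inl fun x hxc => h.off x (cell_sub S c hxc) fun w hw hy => hx ⟨w, hw, x, hxc, hy⟩

theorem dalt_of {K C : ℝ≥0} {St : StT Ω Λ} {ℓ : E3} {a b A Bb a' b' : ℝ} {W : Set Lat}
    {os : Lat → ℝ} {g g' : ConHomeo Ω Λ} {Ψ : E3 → E3} (h : PS K C St ℓ a b A Bb W os g g' Ψ)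
    (hℓ : ∀ k, 1 ≤ ℓ k) (hA : 0 ≤ A) (h1 : A + 1 / 100 ≤ Bb) (h2 : A ≤ 11 / 100)
    {X : Set E3} (hX : X ⊆ Ω) {w : Lat} (hw : w ∈ W) (hs : os w ≤ 1 / 1000)
    (hc : ∀ x ∈ X, g.toFun x ∈ cube ℓ a' b' w) (ha : a' + 2 / 1000 ≤ a) (hb : b + 2 / 1000 ≤ b')
    (haA : a ≤ A) (hbB : Bb ≤ b) : DAlt St g g' X (dirs w) := by
  obtain ⟨h', e1, e2⟩ := h.eqOn hℓ hA h1 h2 hX hw fun x hx =>
    ⟨_, cube_mono (by linarith) (by linarith) (hc x hx), by rw [dist_self]; norm_num⟩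
  exact ⟨h', _, _, _, e1, e2, deep_of hc (by linarith) (by linarith)⟩

theorem exists_even_lat {w : Lat} (h : (dirs w).card ≤ 1) :
    ∃ k : Fin 3, k ≠ 2 ∧ ¬ Odd (w k) := by
  by_contra hc
  push Not at hc
  have := Finset.card_le_one.1 h 0 (mem_dirs.2 (hc 0 (by decide))) 1 (mem_dirs.2 (hc 1 (by decide)))
  exact absurd this (by decide)

theorem round0 : ROUND0 := by
  classical
  intro C hC
  refine ⟨(C + 25) ^ 3, one_le_pow₀ (le_trans hC le_self_add), fun K hK => ?_⟩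
  have hK' : (1:ℝ) ≤ K := hK
  have hC' : (1:ℝ) ≤ C := hC
  refine ⟨1000 * K * (C + 25 + 2 * K) ^ 2, ?_, ?_⟩
  · have : (1:ℝ) ≤ 1000 * K * (C + 25 + 2 * K) ^ 2 := by nlinarith
    exact_mod_cast this
  intro Ω Λ S St g N B o hS hN hB hyp
  obtain ⟨ℓ, hℓe⟩ : ∃ ℓ, ℓ = wd N := ⟨_, rfl⟩
  have hℓ : ∀ k, 1 ≤ ℓ k := hℓe ▸ one_le_wd hN
  simp only [lbox_eq, ← hℓe] at hyp
  obtain ⟨L, hLe⟩ : ∃ L : ℝ, L = C + 25 + 2 * K := ⟨_, rfl⟩
  have hL : 1 ≤ L := by linarith
  have hL2 : L ≤ L ^ 2 := by nlinarith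
  have hpos : ∀ z ∈ nbr 1 B, 0 < o z := fun z hz => (hyp z hz).2.1
  have hsm : ∀ w j, K * (L ^ 2 * om B o w j) ≤ 1 / 1000 := by
    intro w j
    have hp : (0:ℝ) < 1000 * K * L ^ 2 := by positivity
    have h1 : om B o w j ≤ 1 / (1000 * K * L ^ 2) := om_le (by positivity) fun z hz _ => by
      have := (hyp z hz).2.2.1
      push_cast at this
      rw [← hLe] at this
      rw [le_div_iff₀ hp, mul_comm]; exact this
    rw [le_div_iff₀ hp] at h1
    linarith
  have hn : ∀ w j, 0 ≤ om B o w j := fun w j => om_nonneg hpos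
  have s2 : ∀ w j, L ^ 2 * om B o w j ≤ 1 / 1000 := fun w j => by
    have := hsm w j
    have h0 : 0 ≤ L ^ 2 * om B o w j := mul_nonneg (by positivity) (hn w j)
    nlinarith
  have m1 : ∀ w j, L * om B o w j ≤ L ^ 2 * om B o w j := fun w j =>
    mul_le_mul_of_nonneg_right hL2 (hn w j)
  have m0 : ∀ w j, om B o w j ≤ L * om B o w j := fun w j => by
    have := hn w j
    nlinarith
  have k1 : ∀ w j, K * (L * om B o w j) ≤ 1 / 1000 := fun w j =>
    (mul_le_mul_of_nonneg_left (m1 w j) K.2).trans (hsm w j)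
  have k0 : ∀ w j, K * om B o w j ≤ 1 / 1000 := fun w j =>
    (mul_le_mul_of_nonneg_left (m0 w j) K.2).trans (k1 w j)
  have s1 : ∀ w j, L * om B o w j ≤ 1 / 1000 := fun w j => (m1 w j).trans (s2 w j)
  have s0 : ∀ w j, om B o w j ≤ 1 / 1000 := fun w j => (m0 w j).trans (s1 w j)
  have hsub : ∀ {d w} {a b : ℝ}, w ∈ sites B d → a ≤ 1 → 0 ≤ b → cube ℓ a b w ⊆ Λ := by
    intro d w a b hw ha hb y hy
    obtain ⟨z', h1, -, h3⟩ := cover_site hℓ hw (cube_mono ha hb hy)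
    exact (hyp z' h1).1 h3
  have osc0 : ∀ {d w} (c : S.Q.ι) {x₀ : E3} {a b : ℝ}, w ∈ sites B d → x₀ ∈ S.Q.cell c →
      g.toFun x₀ ∈ cube ℓ a b w → a ≤ 1 → 0 ≤ b → ∀ x ∈ S.Q.cell c, ∀ x' ∈ S.Q.cell c,
      dist (g.toFun x) (g.toFun x') ≤ om B o w 1 := by
    intro d w c x₀ a b hw hx₀ hy ha hb x hx x' hx'
    obtain ⟨z', h1, h2, h3⟩ := cover_site hℓ hw (cube_mono ha hb hy)
    exact ((hyp z' h1).2.2.2 c ⟨_, mem_image_of_mem _ hx₀, h3⟩ x hx x' hx').trans (le_om hB h1 h2)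
  -- faces
  have O1 : ∀ w ∈ sites B 2, S.Osc g.toFun (cube ℓ (2 / 100 + 1 / 200) (4 / 100 - 1 / 200) w)
      (om B o w 1) := by
    rintro w hw c ⟨_, ⟨x₀, hx₀, rfl⟩, hy⟩
    exact osc0 c hw hx₀ hy (by norm_num) (by norm_num)
  obtain ⟨g₁, Ψ₁, P1⟩ := pstep hS hℓ (a := 2 / 100) (b := 4 / 100) (μ := 1 / 200) (by norm_num)
    (by norm_num) (by norm_num) (by norm_num) (by norm_num) (by norm_num) (finite_sites hB 2)
    (fun w => om B o w 1) g fun w hw => ⟨hw.1.le, om_pos hB hpos hw le_rfl,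
      (k0 w 1).trans (by norm_num), hsub hw (by norm_num) (by norm_num), O1 w hw⟩
  have D1 : ∀ x ∈ Ω, dist (g.toFun x) (g₁.toFun x) ≤ 26 / 1000 := fun x hx =>
    (P1.disp (fun w _ => k0 w 1) hK (by norm_num) hx).trans (by norm_num)
  -- oscillation after the faces
  have osc1 : ∀ {d w} (c : S.Q.ι) {x₀ : E3} {a b : ℝ}, w ∈ sites B d → x₀ ∈ S.Q.cell c →
      g.toFun x₀ ∈ cube ℓ a b w → a ≤ 1 / 4 → 1 / 100 ≤ b → ∀ x ∈ S.Q.cell c,
      ∀ x' ∈ S.Q.cell c, dist (g₁.toFun x) (g₁.toFun x') ≤ L * om B o w 2 := by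
    intro d w c x₀ a b hw hx₀ hy ha hb x hx x' hx'
    have e := osc0 c hw hx₀ hy (by linarith) (by linarith)
    have f : ∀ u ∈ S.Q.cell c, ∀ F ∈ sites B 2,
        g.toFun u ∈ cube ℓ (2 / 100 + 1 / 200) (4 / 100 - 1 / 200) F →
        om B o F 1 ≤ om B o w 2 := fun u hu F _ hF =>
      om_mono hB hpos (near hℓ (by norm_num) (by norm_num) (by linarith) (by linarith) hF
        (cube_dist hy ((e u hu x₀ hx₀).trans (s0 w 1)))) (by norm_num)
    rw [hLe]
    exact P1.osc (cell_sub S c hx) (cell_sub S c hx') (hn w 2) (f x hx) (f x' hx')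
      ((e x hx x' hx').trans (om_mono (i := 0) hB hpos (by simp) (by norm_num)))
  -- edges
  have O2 : ∀ w ∈ sites B 1, S.Osc g₁.toFun (cube ℓ (5 / 100 + 1 / 100) (8 / 100 - 1 / 100) w)
      (L * om B o w 2) := by
    rintro w hw c ⟨_, ⟨x₀, hx₀, rfl⟩, hy⟩
    exact osc1 c hw hx₀ (cube_dist hy (D1 x₀ (cell_sub S c hx₀))) (by norm_num) (by norm_num)
  obtain ⟨g₂, Ψ₂, P2⟩ := pstep hS hℓ (a := 5 / 100) (b := 8 / 100) (μ := 1 / 100) (by norm_num)
    (by norm_num) (by norm_num) (by norm_num) (by norm_num) (by norm_num) (finite_sites hB 1)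
    (fun w => L * om B o w 2) g₁ fun w hw => ⟨hw.1.le.trans (by norm_num),
      mul_pos (by linarith) (om_pos hB hpos hw (by norm_num)),
      (k1 w 2).trans (by norm_num), hsub hw (by norm_num) (by norm_num), O2 w hw⟩
  have D2 : ∀ x ∈ Ω, dist (g.toFun x) (g₂.toFun x) ≤ 87 / 1000 := fun x hx => by
    have d1 := D1 x hx
    have d2 := P2.disp (fun w _ => k1 w 2) hK (by norm_num) hx
    have d3 := dist_triangle (g.toFun x) (g₁.toFun x) (g₂.toFun x)
    linarith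
  -- vertices
  have O3 : ∀ w ∈ sites B 0, S.Osc g₂.toFun (cube ℓ (9 / 100 + 2 / 100) (14 / 100 - 2 / 100) w)
      (L ^ 2 * om B o w 3) := by
    rintro w hw c ⟨_, ⟨x₀, hx₀, rfl⟩, hy⟩ x hx x' hx'
    have hy0 := cube_dist hy (D2 x₀ (cell_sub S c hx₀))
    have e0 := osc0 c hw hx₀ hy0 (by norm_num) (by norm_num)
    have e := osc1 c hw hx₀ hy0 (by norm_num) (by norm_num)
    have f : ∀ u ∈ S.Q.cell c, ∀ F ∈ sites B 1,
        g₁.toFun u ∈ cube ℓ (5 / 100 + 1 / 100) (8 / 100 - 1 / 100) F →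
        L * om B o F 2 ≤ L * om B o w 3 := fun u hu F _ hF =>
      mul_le_mul_of_nonneg_left (om_mono hB hpos (near hℓ (by norm_num) (by norm_num)
        (by norm_num) (by norm_num) (cube_dist hF (D1 u (cell_sub S c hu)))
        (cube_dist hy0 ((e0 u hu x₀ hx₀).trans (s0 w 1)))) (by norm_num)) (by linarith)
    have := P2.osc (cell_sub S c hx) (cell_sub S c hx') (mul_nonneg (by linarith) (hn w 3))
      (f x hx) (f x' hx') ((e x hx x' hx').trans (mul_le_mul_of_nonneg_left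
        (om_mono (i := 0) hB hpos (by simp) (by norm_num)) (by linarith)))
    rw [← hLe] at this
    linarith
  obtain ⟨g₃, Ψ₃, P3⟩ := pstep hS hℓ (a := 9 / 100) (b := 14 / 100) (μ := 2 / 100) (by norm_num)
    (by norm_num) (by norm_num) (by norm_num) (by norm_num) (by norm_num) (finite_sites hB 0)
    (fun w => L ^ 2 * om B o w 3) g₂ fun w hw => ⟨hw.1.le.trans (by norm_num),
      mul_pos (by positivity) (om_pos hB hpos hw (by norm_num)),
      (hsm w 3).trans (by norm_num), hsub hw (by norm_num) (by norm_num), O3 w hw⟩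
  have hC25 : (0:ℝ) ≤ C + 25 := by linarith
  have notin : ∀ {d : ℕ} {a b : ℝ} {y : E3}, y ∉ interior (⋃ z ∈ nbr 1 B, box ℓ 0 z) →
      a ≤ 1 / 2 → 1 / 100 ≤ b → ∀ w ∈ sites B d, y ∉ cube ℓ a b w :=
    fun hy ha hb w hw h => hy (mem_interior_site hℓ hw ha hb h)
  refine ⟨g₁, g₂, g₃, fun y => Ψ₃ (Ψ₂ (Ψ₁ y)), ⟨?_, ?_, ?_, ?_, ?_⟩, ?_, ?_, ?_, ?_, ?_⟩
  · refine LipschitzWith.of_dist_le_mul fun y y' => ?_
    have a1 := P1.lip y y'
    have a2 := P2.lip (Ψ₁ y) (Ψ₁ y')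
    have a3 := P3.lip (Ψ₂ (Ψ₁ y)) (Ψ₂ (Ψ₁ y'))
    have b2 := mul_le_mul_of_nonneg_left a1 hC25
    have b3 := mul_le_mul_of_nonneg_left (a2.trans b2) hC25
    push_cast
    linarith
  · intro y hy
    simp only [lbox_eq, ← hℓe] at hy
    rw [P1.fix y (notin hy (by norm_num) (by norm_num)),
      P2.fix y (notin hy (by norm_num) (by norm_num)),
      P3.fix y (notin hy (by norm_num) (by norm_num))]
  · intro z y hy
    simp only [lbox_eq, ← hℓe] at hy ⊢
    exact P3.mv.keep hℓ (by norm_num) (P2.mv.keep hℓ (by norm_num)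
      (P1.mv.keep hℓ (by norm_num) hy))
  · intro z y y' hy hy'
    simp only [lbox_eq, ← hℓe, interior_box] at hy hy'
    have c2 := P3.mv.back hℓ (by norm_num) hy
    have c2' := P3.mv.back hℓ (by norm_num) hy'
    have c1 := P2.mv.back hℓ (by norm_num) c2
    have c1' := P2.mv.back hℓ (by norm_num) c2'
    have a3 := P3.inv z _ _ hy hy'
    have a2 := P2.inv z _ _ c2 c2'
    have a1 := P1.inv z _ _ c1 c1'
    have b2 := mul_le_mul_of_nonneg_left a3 hC25
    have b3 := mul_le_mul_of_nonneg_left (a2.trans b2) hC25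
    push_cast
    linarith
  · intro z y hy i hi
    have e := hy.2 i hi
    rw [← hℓe] at e
    have f : ∀ n : ℤ, 1 / 2 ≤ |y i - n * ℓ i| := by
      intro n
      have hl : 0 ≤ ℓ i := by linarith [hℓ i]
      rcases le_or_gt n (z i) with h2 | h2
      · have := int_mono hl h2
        exact le_abs.2 (Or.inl (by linarith [e.1]))
      · have := int_step hl (show z i + 1 ≤ n from h2)
        exact le_abs.2 (Or.inr (by linarith [e.2]))
    have e1 : Ψ₁ y i = y i := P1.mv.fix fun n => lt_of_lt_of_le (by norm_num) (f n)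
    have e2 : Ψ₂ (Ψ₁ y) i = Ψ₁ y i := P2.mv.fix fun n => by
      rw [e1]; exact lt_of_lt_of_le (by norm_num) (f n)
    have e3 : Ψ₃ (Ψ₂ (Ψ₁ y)) i = Ψ₂ (Ψ₁ y) i := P3.mv.fix fun n => by
      rw [e2, e1]; exact lt_of_lt_of_le (by norm_num) (f n)
    rw [e3, e2, e1]
  · intro x hx hy
    simp only [lbox_eq, ← hℓe] at hy
    have e1 := P1.off x hx (notin hy (by norm_num) (by norm_num))
    have e2 := P2.off x hx (by rw [e1]; exact notin hy (by norm_num) (by norm_num))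
    have e3 := P3.off x hx (by rw [e2, e1]; exact notin hy (by norm_num) (by norm_num))
    exact ⟨e1, e2.trans e1, e3.trans (e2.trans e1)⟩
  · intro x hx z o' hy ho' hb
    simp only [lbox_eq, ← hℓe] at hy
    have f : ∀ (w : Lat) (j : ℤ) {a b : ℝ}, j ≤ 3 → g.toFun x ∈ cube ℓ a b w → a < 1 / 2 → 0 < b →
        om B o w j ≤ o' := fun w j a b hj hw ha hb' => om_le ho' fun z' hz' h1 =>
      hb z' hz' ⟨z, rfl, fun k => by
        have a1 := abs_le.1 (h1 k)
        have a2 := abs_le.1 (near_box hℓ ha hb' hw hy k)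
        rw [abs_le]; push_cast; omega⟩
    have e1 := P1.err x hx o' ho' fun w _ hw => f w 1 (by norm_num) hw (by norm_num) (by norm_num)
    have e2 := P2.err x hx (L * o') (mul_nonneg (by linarith) ho') fun w _ hw =>
      mul_le_mul_of_nonneg_left (f w 2 (by norm_num) (cube_dist hw (D1 x hx)) (by norm_num)
        (by norm_num)) (by linarith)
    have e3 := P3.err x hx (L ^ 2 * o') (mul_nonneg (by positivity) ho') fun w _ hw =>
      mul_le_mul_of_nonneg_left (f w 3 (by norm_num) (cube_dist hw (D2 x hx)) (by norm_num)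
        (by norm_num)) (by positivity)
    have a2 := P2.lip (g₁.toFun x) (Ψ₁ (g.toFun x))
    have a3 := P3.lip (g₂.toFun x) (Ψ₂ (Ψ₁ (g.toFun x)))
    have t2 := dist_triangle (g₂.toFun x) (Ψ₂ (g₁.toFun x)) (Ψ₂ (Ψ₁ (g.toFun x)))
    have t3 := dist_triangle (g₃.toFun x) (Ψ₃ (g₂.toFun x)) (Ψ₃ (Ψ₂ (Ψ₁ (g.toFun x))))
    have hCL : (C:ℝ) + 25 ≤ L := by linarith
    have hKo : 0 ≤ K * o' := mul_nonneg K.2 ho'
    have b2 : ((C:ℝ) + 25) * dist (g₁.toFun x) (Ψ₁ (g.toFun x)) ≤ L * (K * o') :=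
      mul_le_mul hCL e1 dist_nonneg (by linarith)
    have b3 : ((C:ℝ) + 25) * dist (g₂.toFun x) (Ψ₂ (Ψ₁ (g.toFun x))) ≤ L * (2 * (L * (K * o'))) :=
      mul_le_mul hCL (by linarith) dist_nonneg (by linarith)
    have b4 : 0 ≤ L ^ 2 * (K * o') := mul_nonneg (by positivity) hKo
    push_cast
    rw [← hLe]
    linarith
  · intro c
    refine ⟨alt_of P1 hℓ (by norm_num) (by norm_num) (by norm_num) (fun w _ => s0 w 1) O1 c ?_,
      alt_of P2 hℓ (by norm_num) (by norm_num) (by norm_num) (fun w _ => s1 w 2) O2 c ?_,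
      alt_of P3 hℓ (by norm_num) (by norm_num) (by norm_num) (fun w _ => s2 w 3) O3 c ?_⟩
    · intro w hw hm x hx y hy
      by_contra hc
      obtain ⟨z, hz, hb⟩ := rim hℓ hw hy ((not_lt.1 hc).trans (by linarith [s0 w 1]))
      refine disjoint_left.1 (hm z hz) (mem_image_of_mem _ hx) ?_
      rw [lbox_eq, ← hℓe]; exact hb
    · intro w hw _ x _ y hy
      rw [rim_empty (by rw [hw.1]; norm_num)] at hy
      exact hy.elim
    · intro w hw _ x _ y hy
      rw [rim_empty (by rw [hw.1]; norm_num)] at hy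
      exact hy.elim
  · rintro c hm ⟨z, hz, _, ⟨x₀, hx₀, rfl⟩, hy⟩
    simp only [lbox_eq, ← hℓe] at hy
    have hX := cell_sub S c
    obtain ⟨t, ht, hT⟩ := exists_face hy
    have hk : ∃ k, t k ≤ 1 / 200 := by
      by_contra hc
      push Not at hc
      refine disjoint_left.1 (hm z (self_nbr hz)) (mem_image_of_mem _ hx₀) ?_
      rw [lbox_eq, ← hℓe]; exact ht _ fun k => (hc k).le
    obtain ⟨k₀, hk₀⟩ := hk
    have all : ∀ {d : ℕ} {w : Lat} {a b : ℝ}, w ∈ sites B d → g.toFun x₀ ∈ cube ℓ a b w → a ≤ 1 →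
        0 ≤ b → ∀ x ∈ S.Q.cell c, g.toFun x ∈ cube ℓ (a + 1 / 1000) (b - 1 / 1000) w :=
      fun hw h ha hb x hx => cube_dist h ((osc0 c hw hx₀ h ha hb x hx x₀ hx₀).trans (s0 _ 1))
    by_cases c1 : ∀ k, k ≠ k₀ → 45 / 1000 ≤ t k
    · obtain ⟨w, hd, hw, hc⟩ := hT {k₀}
      have hs : w ∈ sites B 2 := ⟨by rw [hd, Finset.card_compl]; simp, z, hz, hw⟩
      have h1 := hc (1 / 200) (45 / 1000) (fun k hk => by rw [Finset.mem_singleton.1 hk]; exact hk₀)
        fun k hk => c1 k fun e => hk (Finset.mem_singleton.2 e)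
      exact ⟨_, Or.inl (dalt_of P1 hℓ (by norm_num) (by norm_num) (by norm_num) hX hs (s0 w 1)
        (all hs h1 (by norm_num) (by norm_num)) (by norm_num) (by norm_num) (by norm_num)
        (by norm_num))⟩
    · push Not at c1
      obtain ⟨k₁, hne, hk₁⟩ := c1
      by_cases c2 : ∀ k, k ≠ k₀ → k ≠ k₁ → 85 / 1000 ≤ t k
      · obtain ⟨w, hd, hw, hc⟩ := hT {k₀, k₁}
        have hs : w ∈ sites B 1 :=
          ⟨by rw [hd, Finset.card_compl, Finset.card_pair hne.symm]; simp, z, hz, hw⟩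
        have h1 := hc (45 / 1000) (85 / 1000) (fun k hk => by
            rcases Finset.mem_insert.1 hk with e | e
            · rw [e]; linarith
            · rw [Finset.mem_singleton.1 e]; linarith)
          fun k hk => c2 k (fun e => hk (by simp [e])) fun e => hk (by simp [e])
        have h2 := all hs h1 (by norm_num) (by norm_num)
        exact ⟨_, Or.inr (Or.inl (dalt_of P2 hℓ (by norm_num) (by norm_num) (by norm_num) hX hs
          (s1 w 2) (fun x hx => P1.stay (fun w _ => k0 w 1) hK hℓ (hX hx) (by norm_num)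
            (by norm_num) (h2 x hx)) (by norm_num) (by norm_num) (by norm_num) (by norm_num)))⟩
      · push Not at c2
        obtain ⟨k₂, n0, n1, hk₂⟩ := c2
        obtain ⟨w, hd, hw, hc⟩ := hT Finset.univ
        have hs : w ∈ sites B 0 := ⟨by rw [hd]; simp, z, hz, hw⟩
        have tri : ∀ k : Fin 3, k = k₀ ∨ k = k₁ ∨ k = k₂ := fun k => tri3 _ _ _ k hne n0 n1
        have h1 := hc (85 / 1000) (2 / 10) (fun k _ => by
            rcases tri k with e | e | e <;> rw [e] <;> linarith)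
          fun k hk => absurd (Finset.mem_univ k) hk
        have h2 := all hs h1 (by norm_num) (by norm_num)
        exact ⟨_, Or.inr (Or.inr (dalt_of P3 hℓ (by norm_num) (by norm_num) (by norm_num) hX hs
          (s2 w 3) (fun x hx => P2.stay (fun w _ => k1 w 2) hK hℓ (hX hx) (by norm_num)
            (by norm_num) (P1.stay (fun w _ => k0 w 1) hK hℓ (hX hx) (by norm_num)
              (by norm_num) (h2 x hx))) (by norm_num) (by norm_num) (by norm_num)
            (by norm_num)))⟩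
  · intro z hz c hc
    have hX := cell_sub S c
    let w : Lat := fun k => if k = 2 then 2 * z k else 2 * z k + 1
    have hodd : ∀ k, k ≠ 2 → Odd (w k) := fun k hk => by
      simp only [w, if_neg hk]; exact odd_two_mul_add_one _
    have hd : dirs w = {0, 1} := by
      ext k
      rw [mem_dirs]
      fin_cases k <;> simp [w]
    have hs : w ∈ sites B 2 := by
      refine ⟨by rw [hd]; rfl, ?_⟩
      rcases hz with hz | hz
      · refine ⟨z, hz, fun k => ?_⟩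
        simp only [w]
        split_ifs <;> simp
      · refine ⟨_, hz, fun k => ?_⟩
        simp only [w]
        by_cases hk : k = 2
        · subst hk
          simp only [Pi.sub_apply, Pi.single_eq_same, if_true]
          rw [abs_le]; omega
        · simp [hk]
    have h1 : ∀ x ∈ S.Q.cell c, g.toFun x ∈ cube ℓ (1 / 100) (1 / 2) w := by
      intro x hx k
      obtain ⟨e1, e2⟩ := hc (mem_image_of_mem _ hx)
      by_cases hk : k = 2
      · subst hk
        have p : ¬ Odd (w 2) := by simp [w]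
        have l2 : ℓ 2 = 1 := by rw [hℓe]; simp [wd]
        simp only [rad, if_neg p]
        simp only [ctr, w, if_true, l2]
        push_cast
        rw [show (2 * (z 2 : ℝ) * 1 / 2) = z 2 by ring]
        linarith
      · have e := e2 k hk
        rw [← hℓe] at e
        simp only [rad, if_pos (hodd k hk)]
        simp only [ctr, w, if_neg hk]
        push_cast
        rw [abs_le]; constructor <;> linarith [e.1, e.2]
    obtain ⟨h', lo, hi, o', e1, e2, e3⟩ := dalt_of P1 hℓ (by norm_num) (by norm_num) (by norm_num)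
      hX hs (s0 w 1) h1 (by norm_num) (by norm_num) (by norm_num) (by norm_num)
    rw [hd] at e1
    refine ⟨h', lo, hi, o', e1, fun x hx => ?_, e3⟩
    have h2 := P1.stay (fun w _ => k0 w 1) hK hℓ (hX hx) (by norm_num) (by norm_num) (h1 x hx)
    have nf : ∀ {d : ℕ} {a b : ℝ}, d ≤ 1 → a ≤ 1 / 4 → ∀ v ∈ sites B d,
        g₁.toFun x ∉ cube ℓ a b v := by
      intro d a b hd1 ha v hv hy
      obtain ⟨k, hk, p⟩ := exists_even_lat (hv.1.le.trans hd1)
      have := far hℓ h2 hy (hodd k hk) p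
      linarith
    have f2 := P2.off x (hX hx) (nf le_rfl (by norm_num))
    have f3 := P3.off x (hX hx) (by rw [f2]; exact nf (by norm_num) (by norm_num))
    rw [f3, f2, e2 hx]

end P073.Rd
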