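import Vale.Agent.P073Y.Top.Defs

/-!
# One round: the geometric part.  The analytic content of a stage is an arbitrary predicate `St`.
-/

open Set Metric Topology Filter
open scoped NNReal

namespace P073.Rd

open P073.Top

/-- the type of the analytic content of a stage: old map, new map, box, oscillation, directions -/
abbrev StT (Ω Λ : Set E3) : Type :=
  ConHomeo Ω Λ → ConHomeo Ω Λ → E3 → E3 → ℝ → Finset (Fin 3) → Prop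

variable {Ω Λ : Set E3}

/-- the hypothesis on stages -/
def Stg (K C : ℝ≥0) (S : Src Ω) (St : StT Ω Λ) : Prop :=
  ∀ (g : ConHomeo Ω Λ) (lo hi : E3) (μ o : ℝ) (J : Finset (Fin 3)), J.card ≤ 2 → 0 < o →
    K * o ≤ μ → (∀ i, lo i + μ ≤ hi i) → (∀ i, i ∉ J → hi i - lo i ≤ 16 * μ) →
    mbox lo hi μ ⊆ Λ → S.Osc g.toFun (mbox lo hi μ) o →
    ∃ (h : ConHomeo Ω Λ) (Ψ : E3 → E3), Coll lo hi μ J C Ψ ∧
      (∀ x ∈ Ω, g.toFun x ∉ interior (mbox lo hi μ) → h.toFun x = g.toFun x) ∧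
      (∀ x ∈ Ω, dist (h.toFun x) (Ψ (g.toFun x)) ≤ K * o) ∧ St g h lo hi o J

/-- on `X` the map `g'` is `g` or the result of one stage; `P` keeps `X` away from the rim -/
def Alt (St : StT Ω Λ) (P : Prop) (g g' : ConHomeo Ω Λ) (X : Set E3) : Prop :=
  EqOn g'.toFun g.toFun X ∨ ∃ (h : ConHomeo Ω Λ) (lo hi : E3) (o : ℝ) (J : Finset (Fin 3)),
    St g h lo hi o J ∧ EqOn g'.toFun h.toFun X ∧ (P → Away g.toFun X (Rim lo hi J) (2 * o))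

/-- on `X` the map `g'` is the result of one stage for which `X` is deep -/
def DAlt (St : StT Ω Λ) (g g' : ConHomeo Ω Λ) (X : Set E3) (J : Finset (Fin 3)) : Prop :=
  ∃ (h : ConHomeo Ω Λ) (lo hi : E3) (o : ℝ),
    St g h lo hi o J ∧ EqOn g'.toFun h.toFun X ∧ Deep g.toFun X lo hi (2 * o)

/-- the geometry of a round -/
def ROUND0 : Prop := ∀ C : ℝ≥0, 1 ≤ C → ∃ C' : ℝ≥0, 1 ≤ C' ∧ ∀ K : ℝ≥0, 1 ≤ K →
  ∃ K' : ℝ≥0, 1 ≤ K' ∧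
  ∀ {Ω Λ : Set E3} (S : Src Ω) (St : StT Ω Λ) (g : ConHomeo Ω Λ) (N : ℕ) (B : Set (Fin 3 → ℤ))
    (o : (Fin 3 → ℤ) → ℝ), Stg K C S St → 1 ≤ N → B.Finite →
  (∀ z ∈ nbr 1 B, lbox N 0 z ⊆ Λ ∧ 0 < o z ∧ K' * o z ≤ 1 ∧ S.Osc g.toFun (lbox N 0 z) (o z)) →
  ∃ (g₁ g₂ g₃ : ConHomeo Ω Λ) (Ψ : E3 → E3), Col N (1 / 200) (nbr 1 B) C' Ψ ∧
    (∀ x ∈ Ω, g.toFun x ∉ interior (⋃ z ∈ nbr 1 B, lbox N 0 z) →
      g₁.toFun x = g.toFun x ∧ g₂.toFun x = g.toFun x ∧ g₃.toFun x = g.toFun x) ∧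
    (∀ x ∈ Ω, ∀ z o', g.toFun x ∈ lbox N 0 z → 0 ≤ o' →
      (∀ z' ∈ nbr 1 B, z' ∈ nbr 4 {z} → o z' ≤ o') →
      dist (g₃.toFun x) (Ψ (g.toFun x)) ≤ K' * o') ∧
    (∀ c, Alt St (Miss N (1 / 200) (nbr 1 B) g.toFun (S.Q.cell c)) g g₁ (S.Q.cell c) ∧
      Alt St True g₁ g₂ (S.Q.cell c) ∧ Alt St True g₂ g₃ (S.Q.cell c)) ∧
    (∀ c, Miss N (1 / 200) (nbr 1 B) g.toFun (S.Q.cell c) →
      (∃ z ∈ B, (g.toFun '' S.Q.cell c ∩ lbox N 0 z).Nonempty) →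
      ∃ J, DAlt St g g₁ (S.Q.cell c) J ∨ DAlt St g₁ g₂ (S.Q.cell c) J ∨
        DAlt St g₂ g₃ (S.Q.cell c) J) ∧
    ∀ z, (z ∈ B ∨ z - Pi.single 2 1 ∈ B) → ∀ c, g.toFun '' S.Q.cell c ⊆ shr N (1 / 200) z →
      DAlt St g g₃ (S.Q.cell c) {0, 1}

end P073.Rd
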